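import Vale.Agent.P372.Metro.Gain

open Matrix Kronecker
open scoped ComplexOrder MatrixOrder

set_option linter.unusedSectionVars false
set_option linter.unusedSimpArgs false

namespace Vale.Agent.P372

namespace Metro

variable {α β γ δ F : Type} [Fintype α] [DecidableEq α] [Fintype β] [DecidableEq β]
  [Fintype γ] [DecidableEq γ] [Fintype δ] [DecidableEq δ] [Fintype F] [DecidableEq F]

theorem qfi_nonneg {I : Type} [Fintype I] [DecidableEq I] (Φ : Matrix I F ℂ) {G : Matrix I I ℂ}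
    (hG : G.IsHermitian) : 0 ≤ qfi (Φ * Φᴴ) G := by
  refine le_trans ?_ (le_qfi Φ hG isHermitian_zero)
  simp

theorem trace_obs_comm (W : Matrix (α × β) (α × β) ℂ) (R : Matrix (γ × δ) (γ × δ) ℂ)
    (hR : R.IsHermitian) (X : Bool → Matrix α γ ℂ) (Y : Bool → Matrix β δ ℂ) {f : ℝ}
    (hW : (W * ((X false ⊗ₖ Y false) * R * (X true ⊗ₖ Y true)ᴴ)).trace = f) :
    (((stk X ⊗ₖ stk Y) * R * (stk X ⊗ₖ stk Y)ᴴ) * (gg α β * obs W - obs W * gg α β)).trace =
      8 * Complex.I * f := by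
  set σ := (stk X ⊗ₖ stk Y) * R * (stk X ⊗ₖ stk Y)ᴴ with hσ
  have h1 : (σ * (jj α β true true * W * (jj α β false false)ᴴ)).trace = f := by
    rw [← hW, ← jj_sigma, ← hσ, ← Matrix.mul_assoc, trace_mul_comm, ← Matrix.mul_assoc σ,
      ← Matrix.mul_assoc, trace_mul_comm]
    simp only [Matrix.mul_assoc]
  have hσh : σᴴ = σ := by
    rw [hσ, conjTranspose_mul, conjTranspose_mul, conjTranspose_conjTranspose, hR.eq]
    simp only [Matrix.mul_assoc]
  have h2 : (σ * (jj α β false false * Wᴴ * (jj α β true true)ᴴ)).trace = f := by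
    have h3 := congrArg star h1
    rw [← trace_conjTranspose, conjTranspose_mul, conjTranspose_mul, conjTranspose_mul,
      conjTranspose_conjTranspose, hσh, trace_mul_comm] at h3
    rw [← Matrix.mul_assoc (jj α β false false)] at h3
    rw [h3]
    simp
  rw [obs_comm, Matrix.mul_smul, trace_smul, Matrix.mul_add, trace_add, h1, h2, smul_eq_mul]
  ring

theorem trace_obs_sq {W : Matrix (α × β) (α × β) ℂ} (hW : Contr W)
    (Φ : Matrix (γ × δ) F ℂ) (X : Bool → Matrix α γ ℂ) (Y : Bool → Matrix β δ ℂ) :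
    (((stk X ⊗ₖ stk Y) * (Φ * Φᴴ) * (stk X ⊗ₖ stk Y)ᴴ) * (obs W * obs W)).trace.re ≤
      pw (Φ * Φᴴ) X Y false false + pw (Φ * Φᴴ) X Y true true := by
  set σ := (stk X ⊗ₖ stk Y) * (Φ * Φᴴ) * (stk X ⊗ₖ stk Y)ᴴ with hσ
  have h1 : ∀ (i : Bool) (V : Matrix (α × β) (α × β) ℂ),
      (σ * (jj α β i i * (Vᴴ * V) * (jj α β i i)ᴴ)).trace.re =
      hs (V * ((X i ⊗ₖ Y i) * Φ)) := by
    intro i V
    have : (σ * (jj α β i i * (Vᴴ * V) * (jj α β i i)ᴴ)).trace =
        ((Vᴴ * V) * ((jj α β i i)ᴴ * σ * jj α β i i)).trace := by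
      rw [← Matrix.mul_assoc, trace_mul_comm, ← Matrix.mul_assoc σ, ← Matrix.mul_assoc,
        trace_mul_comm]
      simp only [Matrix.mul_assoc]
    rw [this, hσ, jj_sigma, ← hs_conjTranspose, hs_eq_re, conjTranspose_conjTranspose]
    congr 1
    rw [conjTranspose_mul V, conjTranspose_mul _ Φ, Matrix.mul_assoc Vᴴ, trace_mul_comm]
    simp only [Matrix.mul_assoc]
  have h2 : ∀ i : Bool, pw (Φ * Φᴴ) X Y i i = hs ((X i ⊗ₖ Y i) * Φ) := by
    intro i
    rw [pw, ← hs_conjTranspose, hs_eq_re, conjTranspose_conjTranspose, conjTranspose_mul _ Φ]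
    simp only [Matrix.mul_assoc]
  rw [obs_sq, Matrix.mul_add, trace_add, Complex.add_re, h1, h2, h2]
  have h3 := h1 true Wᴴ
  rw [conjTranspose_conjTranspose] at h3
  rw [h3]
  refine add_le_add (hs_mul_le_left hW.2 _) (hs_mul_le_left ?_ _)
  rw [conjTranspose_conjTranspose]
  exact hW.1

/-- The Fisher information of the flagged filtered state. -/
theorem qfi_ge (Φ : Matrix (γ × δ) F ℂ) (X : Bool → Matrix α γ ℂ) (Y : Bool → Matrix β δ ℂ) :
    64 * traceNorm ((X false ⊗ₖ Y false) * (Φ * Φᴴ) * (X true ⊗ₖ Y true)ᴴ) ^ 2 ≤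
      (pw (Φ * Φᴴ) X Y false false + pw (Φ * Φᴴ) X Y true true) *
        qfi ((stk X ⊗ₖ stk Y) * (Φ * Φᴴ) * (stk X ⊗ₖ stk Y)ᴴ) (gg α β) := by
  obtain ⟨W, hW, hf⟩ := traceNorm_exists ((X false ⊗ₖ Y false) * (Φ * Φᴴ) * (X true ⊗ₖ Y true)ᴴ)
  set f := traceNorm ((X false ⊗ₖ Y false) * (Φ * Φᴴ) * (X true ⊗ₖ Y true)ᴴ) with hfd
  have h1 := trace_obs_comm W (Φ * Φᴴ) (isHermitian_mul_conjTranspose_self Φ) X Y hf
  have h2 := trace_obs_sq hW Φ X Y
  have hσ : (stk X ⊗ₖ stk Y) * (Φ * Φᴴ) * (stk X ⊗ₖ stk Y)ᴴ =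
      ((stk X ⊗ₖ stk Y) * Φ) * ((stk X ⊗ₖ stk Y) * Φ)ᴴ := by
    rw [conjTranspose_mul]
    simp only [Matrix.mul_assoc]
  have h3 : ‖(((stk X ⊗ₖ stk Y) * (Φ * Φᴴ) * (stk X ⊗ₖ stk Y)ᴴ) *
      (gg α β * obs W - obs W * gg α β)).trace‖ ^ 2 = 64 * f ^ 2 := by
    rw [h1]
    simp only [norm_mul, Complex.norm_I, Complex.norm_real, Real.norm_eq_abs, mul_pow, sq_abs]
    norm_num
  rw [hσ] at h2 h3 ⊢
  have h4 := psd_sq ((stk X ⊗ₖ stk Y) * Φ) (obs_herm W)
  have h5 := le_qfi ((stk X ⊗ₖ stk Y) * Φ) gg_herm (obs_herm W)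
  have h6 := qfi_nonneg ((stk X ⊗ₖ stk Y) * Φ) (gg_herm (α := α) (β := β))
  rcases h4.eq_or_lt with h | h
  · have h7 := robertson ((stk X ⊗ₖ stk Y) * Φ) gg_herm (obs_herm W)
    rw [← h, mul_zero, h3] at h7
    rw [← h] at h2
    exact h7.trans (mul_nonneg h2 h6)
  · rw [h3, div_le_iff₀ h] at h5
    refine h5.trans ?_
    rw [mul_comm]
    exact mul_le_mul_of_nonneg_right h2 h6

section

variable (R : Matrix (γ × δ) (γ × δ) ℂ) (X : Bool → Matrix α γ ℂ) (Y : Bool → Matrix β δ ℂ)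

theorem trace_one : ((stk X ⊗ₖ stk Y) * R * (stk X ⊗ₖ stk Y)ᴴ).trace.re =
    pw R X Y false false + pw R X Y false true + pw R X Y true false + pw R X Y true true := by
  have := trace_sigma R X Y (M := 1) (m := fun _ _ => 1) (fun i j => by
    rw [Matrix.one_mul]
    simp)
  rw [Matrix.mul_one] at this
  rw [this]
  ring

theorem trace_gg : (((stk X ⊗ₖ stk Y) * R * (stk X ⊗ₖ stk Y)ᴴ) * (gg α β * gg α β)).trace.re =
    4 * (pw R X Y false false + pw R X Y true true) := by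
  have := trace_sigma R X Y (M := gg α β * gg α β) (m := fun i j => (sg i + sg j) * (sg i + sg j))
    (fun i j => by
      rw [Matrix.mul_assoc, gg, gg_jj, Matrix.mul_smul, gg_jj, smul_smul]
      push_cast
      rfl)
  rw [this]
  simp only [sg]
  norm_num
  ring

theorem trace_kk : (((stk X ⊗ₖ stk Y) * R * (stk X ⊗ₖ stk Y)ᴴ) * (zz α ⊗ₖ zz β)).trace.re =
    pw R X Y false false - pw R X Y false true - pw R X Y true false + pw R X Y true true := by
  have := trace_sigma R X Y (M := zz α ⊗ₖ zz β) (m := fun i j => sg i * sg j) kk_jj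
  rw [this]
  simp only [sg]
  norm_num
  ring

end

end Metro

end Vale.Agent.P372
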