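import Vale.Agent.P372.TestDefs

open Matrix Kronecker
open scoped ComplexOrder

namespace Vale.Agent.P372

variable {A B C D : Type}

/-- The operator `(X ⊗ Y) ρ^{⊗ n} (X ⊗ Y)*` on `C ⊗ D`: the state of Alice and Bob, not normalised,
after the local filters `X` of Alice and `Y` of Bob have succeeded on `n` copies of `ρ`. -/
def filtered [Fintype A] [Fintype B] (n : ℕ) (ρ : Matrix (A × B) (A × B) ℂ)
    (X : Matrix C (Fin n → A) ℂ) (Y : Matrix D (Fin n → B) ℂ) : Matrix (C × D) (C × D) ℂ :=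
  (X ⊗ₖ Y) * tpow n ρ * (X ⊗ₖ Y)ᴴ

/-- The quantum Fisher information of the operator `σ ≥ 0` for the generator `G`: the supremum over
all Hermitian `H` of `|tr σ[G, H]|² / tr (σ H²)`. -/
noncomputable def qfi {I : Type} [Fintype I] (σ G : Matrix I I ℂ) : ℝ :=
  ⨆ H : {H : Matrix I I ℂ // H.IsHermitian},
    ‖(σ * (G * H.1 - H.1 * G)).trace‖ ^ 2 / (σ * (H.1 * H.1)).trace.re

end Vale.Agent.P372
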