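import Vale.Agent.P372.Metro.Main

open Matrix Kronecker
open scoped ComplexOrder MatrixOrder

set_option linter.unusedSectionVars false
set_option linter.unusedSimpArgs false

namespace Vale.Agent.P372

namespace Metro

variable {A B C D E I F : Type} [Fintype A] [DecidableEq A] [Fintype B] [DecidableEq B]
  [Fintype C] [DecidableEq C] [Fintype D] [DecidableEq D] [Fintype E] [DecidableEq E]
  [Fintype I] [DecidableEq I] [Fintype F] [DecidableEq F]

theorem psd_herm {a : Matrix C C ℂ} (h : (1 - a).PosSemidef) : a.IsHermitian := by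
  have := h.1
  rw [IsHermitian, conjTranspose_sub, conjTranspose_one] at this
  have h2 : a = 1 - (1 - a) := by abel
  rw [IsHermitian, h2, conjTranspose_sub, conjTranspose_one, conjTranspose_sub, conjTranspose_one,
    this]

theorem psd_one_sub_sq {a : Matrix C C ℂ} (h : (1 - a).PosSemidef) (h' : (1 + a).PosSemidef) :
    (1 - a * a).PosSemidef := by
  have ha := psd_herm h
  have h1 := h'.mul_mul_conjTranspose_same (1 - a)
  have h2 := h.mul_mul_conjTranspose_same (1 + a)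
  rw [h.1.eq] at h1
  rw [h'.1.eq] at h2
  have h3 := (h1.add h2).smul (a := (1 / 2 : ℝ)) (by norm_num)
  convert h3 using 1
  have e : (1 - a) * (1 + a) * (1 - a) + (1 + a) * (1 - a) * (1 + a) = (2 : ℝ) • (1 - a * a) := by
    rw [two_smul]
    noncomm_ring
  rw [e, smul_smul]
  norm_num

theorem trace_psd (Φ : Matrix I F ℂ) {M : Matrix I I ℂ} (hM : M.PosSemidef) :
    0 ≤ ((Φ * Φᴴ) * M).trace.re := by
  have : ((Φ * Φᴴ) * M).trace = (Φᴴ * M * Φ).trace := by
    rw [Matrix.mul_assoc, trace_mul_comm]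
  rw [this]
  exact re_trace_nonneg (hM.conjTranspose_mul_mul_same Φ)

theorem sub_kron (a a' : Matrix C C ℂ) (b : Matrix D D ℂ) :
    (a - a') ⊗ₖ b = a ⊗ₖ b - a' ⊗ₖ b := by
  ext ⟨i, j⟩ ⟨k, l⟩
  simp [kroneckerMap_apply, sub_mul]

theorem kron_sub (a : Matrix C C ℂ) (b b' : Matrix D D ℂ) :
    a ⊗ₖ (b - b') = a ⊗ₖ b - a ⊗ₖ b' := by
  ext ⟨i, j⟩ ⟨k, l⟩
  simp [kroneckerMap_apply, mul_sub]

theorem useful_iff (Ψ : Matrix (A × B) E ℂ) (hΨ : (Ψ * Ψᴴ).trace = 1) {r : ℝ} (hr : 8 ≤ r)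
    (hr' : r < 16) :
    0 < distillableKey Ψ ↔ ∃ (n : ℕ) (C D : Type) (_ : Fintype C) (_ : DecidableEq C)
      (_ : Fintype D) (_ : DecidableEq D) (X : Matrix C (Fin n → A) ℂ)
      (Y : Matrix D (Fin n → B) ℂ) (a : Matrix C C ℂ) (b : Matrix D D ℂ), 1 ≤ n ∧
      (1 - a).PosSemidef ∧ (1 + a).PosSemidef ∧ (1 - b).PosSemidef ∧ (1 + b).PosSemidef ∧
      r * (filtered n (Ψ * Ψᴴ) X Y).trace.re <
        qfi (filtered n (Ψ * Ψᴴ) X Y) (a ⊗ₖ 1 + 1 ⊗ₖ b) := by
  constructor
  · intro h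
    have he : 0 < (16 - r) / 200 := by linarith
    have he1 : (16 - r) / 200 < 1 / 4 := by linarith
    obtain ⟨n, hn, c, P, Q, X, Y, hc, h1, h2, h3, h4, h5, h6, h7⟩ := near_stk Ψ h he he1
    refine ⟨n, _, _, inferInstance, inferInstance, inferInstance, inferInstance, stk X, stk Y,
      zz _, zz _, hn, one_sub_zz, one_add_zz, one_sub_zz, one_add_zz, ?_⟩
    set e := (16 - r) / 200 with hed
    have hr0 : 16 - r = 200 * e := by rw [hed]; ring
    have hP : 0 < P := by
      have : 0 < c * (1 - 2 * e) := mul_pos hc (by linarith)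
      linarith
    rw [h4]
    refine lt_of_mul_lt_mul_left ?_ hP.le
    refine lt_of_lt_of_le ?_ h7
    have k1 : c * (1 / 2) ≤ P := by
      have : c * (1 / 2) ≤ c * (1 - 2 * e) := mul_le_mul_of_nonneg_left (by linarith) hc.le
      linarith
    have k2 : r * Q ≤ 16 * Q := mul_le_mul_of_nonneg_right hr'.le h2
    have k3 : 0 < (16 - r) * P - 64 * e * c - r * Q := by
      rw [hr0]
      have : 0 < e * c := mul_pos he hc
      nlinarith [mul_le_mul_of_nonneg_left k1 he.le]
    have k4 : P * (r * (P + Q)) = 16 * (P - 2 * e * c) ^ 2 -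
        (P * ((16 - r) * P - 64 * e * c - r * Q) + 64 * (e * c) ^ 2) := by ring
    rw [k4]
    have := mul_pos hP k3
    nlinarith [sq_nonneg (e * c)]
  · rintro ⟨n, C, D, _, _, _, _, X, Y, a, b, hn, ha1, ha2, hb1, hb2, h⟩
    have ha := psd_herm ha1
    have hb := psd_herm hb1
    have hσ : ∀ M : Matrix (C × D) (C × D) ℂ, M.PosSemidef →
        0 ≤ ((filtered n (Ψ * Ψᴴ) X Y) * M).trace.re := by
      intro M hM
      rw [filtered_eq]
      exact trace_psd _ hM
    have t0 : 0 ≤ (filtered n (Ψ * Ψᴴ) X Y).trace.re := by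
      have := hσ 1 PosSemidef.one
      rwa [Matrix.mul_one] at this
    have ta := hσ _ ((psd_one_sub_sq ha1 ha2).kronecker (PosSemidef.one (n := D)))
    have tb := hσ _ ((PosSemidef.one (n := C)).kronecker (psd_one_sub_sq hb1 hb2))
    rw [sub_kron, one_kronecker_one, Matrix.mul_sub, trace_sub, Complex.sub_re,
      Matrix.mul_one] at ta
    rw [kron_sub, one_kronecker_one, Matrix.mul_sub, trace_sub, Complex.sub_re,
      Matrix.mul_one] at tb
    have hsq : ∀ H : Matrix (C × D) (C × D) ℂ, H.IsHermitian →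
        0 ≤ ((filtered n (Ψ * Ψᴴ) X Y) * (H * H)).trace.re := by
      intro H hH
      rw [filtered_eq]
      exact psd_sq _ hH
    have h8 : 4 * (2 * (filtered n (Ψ * Ψᴴ) X Y).trace.re) <
        qfi (filtered n (Ψ * Ψᴴ) X Y) (a ⊗ₖ 1 + 1 ⊗ₖ b) := by
      refine lt_of_le_of_lt ?_ h
      have := mul_le_mul_of_nonneg_right hr t0
      linarith
    obtain ⟨H, hH, hv⟩ := exists_of_lt_qfi (by linarith) hsq h8
    refine local_pos Ψ hΨ hn X Y ha hb hH (lt_of_le_of_lt ?_ hv)
    refine mul_le_mul_of_nonneg_left (by linarith) ?_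
    have := hsq H hH
    linarith

end Metro

end Vale.Agent.P372
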