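import Vale.Agent.P372.Metro.Equiv

open Matrix Kronecker
open scoped ComplexOrder MatrixOrder

set_option linter.unusedSectionVars false
set_option linter.unusedSimpArgs false

namespace Vale.Agent.P372

namespace Metro

variable {A B C D E I F : Type} [Fintype A] [DecidableEq A] [Fintype B] [DecidableEq B]
  [Fintype C] [DecidableEq C] [Fintype D] [DecidableEq D] [Fintype E] [DecidableEq E]
  [Fintype I] [DecidableEq I] [Fintype F] [DecidableEq F]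

theorem kron_herm {a : Matrix C C ℂ} {b : Matrix D D ℂ} (ha : a.IsHermitian)
    (hb : b.IsHermitian) : (a ⊗ₖ (1 : Matrix D D ℂ) + (1 : Matrix C C ℂ) ⊗ₖ b).IsHermitian := by
  rw [IsHermitian, conjTranspose_add, conjTranspose_kronecker, conjTranspose_kronecker,
    conjTranspose_one, conjTranspose_one, ha.eq, hb.eq]

theorem kron_sq (a : Matrix C C ℂ) (b : Matrix D D ℂ) :
    (a ⊗ₖ (1 : Matrix D D ℂ) + (1 : Matrix C C ℂ) ⊗ₖ b) *
      (a ⊗ₖ (1 : Matrix D D ℂ) + (1 : Matrix C C ℂ) ⊗ₖ b) =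
      (a * a) ⊗ₖ 1 + 1 ⊗ₖ (b * b) + (a ⊗ₖ b + a ⊗ₖ b) := by
  rw [Matrix.add_mul, Matrix.mul_add, Matrix.mul_add, ← mul_kronecker_mul, ← mul_kronecker_mul,
    ← mul_kronecker_mul, ← mul_kronecker_mul]
  simp only [Matrix.one_mul, Matrix.mul_one]
  abel

theorem cov_iff (Ψ : Matrix (A × B) E ℂ) (hΨ : (Ψ * Ψᴴ).trace = 1) {c : ℝ} (hc : 0 < c)
    (hc' : c ≤ 1 / 2) :
    0 < distillableKey Ψ ↔ ∃ (n : ℕ) (C D : Type) (_ : Fintype C) (_ : DecidableEq C)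
      (_ : Fintype D) (_ : DecidableEq D) (X : Matrix C (Fin n → A) ℂ)
      (Y : Matrix D (Fin n → B) ℂ) (a : Matrix C C ℂ) (b : Matrix D D ℂ), 1 ≤ n ∧
      a.IsHermitian ∧ b.IsHermitian ∧
      4 * ((filtered n (Ψ * Ψᴴ) X Y *
        ((a ⊗ₖ 1 + 1 ⊗ₖ b) * (a ⊗ₖ 1 + 1 ⊗ₖ b) - (4 * c : ℂ) • (a ⊗ₖ b))).trace.re) <
        qfi (filtered n (Ψ * Ψᴴ) X Y) (a ⊗ₖ 1 + 1 ⊗ₖ b) := by
  have split : ∀ {C D : Type} [Fintype C] [DecidableEq C] [Fintype D] [DecidableEq D]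
      (σ : Matrix (C × D) (C × D) ℂ) (a : Matrix C C ℂ) (b : Matrix D D ℂ),
      (σ * ((a ⊗ₖ 1 + 1 ⊗ₖ b) * (a ⊗ₖ 1 + 1 ⊗ₖ b) - (4 * c : ℂ) • (a ⊗ₖ b))).trace.re =
      (σ * ((a ⊗ₖ 1 + 1 ⊗ₖ b) * (a ⊗ₖ 1 + 1 ⊗ₖ b))).trace.re -
        4 * c * (σ * (a ⊗ₖ b)).trace.re := by
    intro C D _ _ _ _ σ a b
    rw [Matrix.mul_sub, trace_sub, Matrix.mul_smul, trace_smul, Complex.sub_re, smul_eq_mul]
    have : (4 * c : ℂ) = ((4 * c : ℝ) : ℂ) := by push_cast; rfl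
    rw [this, Complex.re_ofReal_mul]
  constructor
  · intro h
    have he : 0 < c / 8 := by linarith
    have he1 : c / 8 < 1 / 4 := by linarith
    obtain ⟨n, hn, k, P, Q, X, Y, hk, h1, h2, h3, h4, h5, h6, h7⟩ := near_stk Ψ h he he1
    refine ⟨n, _, _, inferInstance, inferInstance, inferInstance, inferInstance, stk X, stk Y,
      zz _, zz _, hn, zz_herm, zz_herm, ?_⟩
    rw [split]
    rw [gg] at h5 h7
    rw [h5, h6]
    have hP : 0 < P := by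
      have : 0 < k * (1 - 2 * (c / 8)) := mul_pos hk (by linarith)
      linarith
    refine lt_of_mul_lt_mul_left ?_ hP.le
    refine lt_of_lt_of_le ?_ h7
    have k1 : k * (3 / 4) ≤ P - Q := by
      have : k * (3 / 4) ≤ k * (1 - 4 * (c / 8)) := mul_le_mul_of_nonneg_left (by linarith) hk.le
      linarith
    have k2 : 0 < c * (P - Q) - 4 * (c / 8) * k := by
      have : 0 < c * k := mul_pos hc hk
      have := mul_le_mul_of_nonneg_left k1 hc.le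
      linarith
    have k4 : P * (4 * (4 * P - 4 * c * (P - Q))) = 16 * (P - 2 * (c / 8) * k) ^ 2 -
        16 * (P * (c * (P - Q) - 4 * (c / 8) * k) + 4 * (c / 8 * k) ^ 2) := by ring
    rw [k4]
    have := mul_pos hP k2
    have := sq_nonneg (c / 8 * k)
    linarith
  · rintro ⟨n, C, D, _, _, _, _, X, Y, a, b, hn, ha, hb, h⟩
    rw [split] at h
    have hG := kron_herm ha hb
    have h1 := qfi_le ((X ⊗ₖ Y) * copies n Ψ) hG
    rw [← filtered_eq] at h1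
    have h2 : 0 < (filtered n (Ψ * Ψᴴ) X Y * (a ⊗ₖ b)).trace.re := by
      by_contra h3
      have := mul_nonneg_of_nonpos_of_nonpos (not_lt.mp h3) (by linarith : -c ≤ 0)
      linarith
    have hsq : ∀ H : Matrix (C × D) (C × D) ℂ, H.IsHermitian →
        0 ≤ ((filtered n (Ψ * Ψᴴ) X Y) * (H * H)).trace.re := by
      intro H hH
      rw [filtered_eq]
      exact psd_sq _ hH
    have h5 : ((filtered n (Ψ * Ψᴴ) X Y) * ((a ⊗ₖ 1 + 1 ⊗ₖ b) * (a ⊗ₖ 1 + 1 ⊗ₖ b))).trace.re =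
        ((filtered n (Ψ * Ψᴴ) X Y) * ((a * a) ⊗ₖ 1)).trace.re +
        ((filtered n (Ψ * Ψᴴ) X Y) * (1 ⊗ₖ (b * b))).trace.re +
        2 * (filtered n (Ψ * Ψᴴ) X Y * (a ⊗ₖ b)).trace.re := by
      rw [kron_sq, Matrix.mul_add, Matrix.mul_add, Matrix.mul_add, trace_add, trace_add, trace_add,
        Complex.add_re, Complex.add_re, Complex.add_re]
      ring
    have hA : 0 ≤ ((filtered n (Ψ * Ψᴴ) X Y) * ((a * a) ⊗ₖ 1)).trace.re := by
      have := hsq (a ⊗ₖ 1) (by rw [IsHermitian, conjTranspose_kronecker, ha.eq, conjTranspose_one])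
      rwa [← mul_kronecker_mul, Matrix.one_mul] at this
    have hB : 0 ≤ ((filtered n (Ψ * Ψᴴ) X Y) * (1 ⊗ₖ (b * b))).trace.re := by
      have := hsq (1 ⊗ₖ b) (by rw [IsHermitian, conjTranspose_kronecker, hb.eq, conjTranspose_one])
      rwa [← mul_kronecker_mul, Matrix.one_mul] at this
    have h6 : 4 * (((filtered n (Ψ * Ψᴴ) X Y) * ((a * a) ⊗ₖ 1)).trace.re +
        ((filtered n (Ψ * Ψᴴ) X Y) * (1 ⊗ₖ (b * b))).trace.re) <
        qfi (filtered n (Ψ * Ψᴴ) X Y) (a ⊗ₖ 1 + 1 ⊗ₖ b) := by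
      refine lt_of_le_of_lt ?_ h
      rw [h5]
      have := mul_le_mul_of_nonneg_right hc' h2.le
      linarith
    obtain ⟨H, hH, hv⟩ := exists_of_lt_qfi (by linarith) hsq h6
    exact local_pos Ψ hΨ hn X Y ha hb hH hv

theorem test_iff (Ψ : Matrix (A × B) E ℂ) (hΨ : (Ψ * Ψᴴ).trace = 1) {c : ℝ} (hc : 0 < c)
    (hc' : c ≤ 1 / 2) :
    0 < distillableKey Ψ ↔ ∃ (n : ℕ) (X₀ X₁ : Matrix (Fin n → A) (Fin n → A) ℂ)
      (Y₀ Y₁ : Matrix (Fin n → B) (Fin n → B) ℂ),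
      (weight (tpow n (Ψ * Ψᴴ)) X₀ Y₁ * weight (tpow n (Ψ * Ψᴴ)) X₁ Y₀) ^ c *
        (weight (tpow n (Ψ * Ψᴴ)) X₀ Y₀ * weight (tpow n (Ψ * Ψᴴ)) X₁ Y₁) ^ (1 - c) <
        traceNorm ((X₀ ⊗ₖ Y₀) * (tpow n (Ψ * Ψᴴ)) * (X₁ ⊗ₖ Y₁)ᴴ) ^ 2 := by
  have w : ∀ (n : ℕ) X Y, 0 ≤ weight (tpow n (Ψ * Ψᴴ)) X Y := by
    intro n X Y
    rw [← copies_mul]
    exact Xor.wt_nonneg (copies n Ψ) X Y
  constructor
  · intro h
    set e : ℝ := (1 / 64) ^ (1 / (2 * c)) with hed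
    have he : 0 < e := Real.rpow_pos_of_pos (by norm_num) _
    have he1 : e ^ (2 * c) = 1 / 64 := by
      rw [hed, ← Real.rpow_mul (by norm_num)]
      have : 1 / (2 * c) * (2 * c) = 1 := by field_simp
      rw [this, Real.rpow_one]
    have he2 : e ≤ 1 / 64 := by
      have h1 : (1 : ℝ) ≤ 1 / (2 * c) := by
        rw [le_div_iff₀ (by linarith)]
        linarith
      calc e ≤ (1 / 64 : ℝ) ^ (1 : ℝ) :=
            Real.rpow_le_rpow_of_exponent_ge (by norm_num) (by norm_num) h1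
        _ = _ := Real.rpow_one _
    obtain ⟨n, hn, k, X₀, X₁, Y₀, Y₁, hk, h1, h2, h3, h4, h5⟩ := near_of_pos Ψ h he
    refine ⟨n, X₀, X₁, Y₀, Y₁, ?_⟩
    have g1 := abs_le.mp h1
    have g2 := abs_le.mp h2
    have hek : 0 < e * k := mul_pos he hk
    have hek2 : e * k ≤ 1 / 64 * k := mul_le_mul_of_nonneg_right he2 hk.le
    have b1 : weight (tpow n (Ψ * Ψᴴ)) X₀ Y₁ * weight (tpow n (Ψ * Ψᴴ)) X₁ Y₀ ≤ (e * k) ^ 2 := by
      rw [sq]
      exact mul_le_mul h3 h4 (w _ _ _) hek.le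
    have b2 : weight (tpow n (Ψ * Ψᴴ)) X₀ Y₀ * weight (tpow n (Ψ * Ψᴴ)) X₁ Y₁ ≤ k ^ 2 := by
      rw [sq]
      exact mul_le_mul (by linarith) (by linarith) (w _ _ _) hk.le
    have b3 : k * (15 / 32) ≤ traceNorm ((X₀ ⊗ₖ Y₀) * (tpow n (Ψ * Ψᴴ)) * (X₁ ⊗ₖ Y₁)ᴴ) := by
      refine le_trans ?_ h5
      linarith
    have b4 := pow_le_pow_left₀ (mul_nonneg hk.le (by norm_num)) b3 2
    refine lt_of_lt_of_le ?_ b4
    have c1 := Real.rpow_le_rpow (mul_nonneg (w n X₀ Y₁) (w n X₁ Y₀)) b1 hc.le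
    have c2 := Real.rpow_le_rpow (mul_nonneg (w n X₀ Y₀) (w n X₁ Y₁)) b2
      (by linarith : 0 ≤ 1 - c)
    refine lt_of_le_of_lt (mul_le_mul c1 c2 (Real.rpow_nonneg (mul_nonneg (w _ _ _) (w _ _ _)) _)
      (Real.rpow_nonneg (sq_nonneg _) _)) ?_
    have d1 : ((e * k) ^ 2) ^ c = 1 / 64 * (k ^ 2) ^ c := by
      rw [mul_pow, Real.mul_rpow (sq_nonneg _) (sq_nonneg _), ← Real.rpow_natCast e 2,
        ← Real.rpow_mul he.le]
      push_cast
      rw [he1]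
    have d2 : (k ^ 2) ^ c * (k ^ 2) ^ (1 - c) = k ^ 2 := by
      rw [← Real.rpow_add (by positivity)]
      have : c + (1 - c) = 1 := by ring
      rw [this, Real.rpow_one]
    rw [d1, mul_assoc, d2]
    have : 0 < k ^ 2 := by positivity
    nlinarith
  · rintro ⟨n, X₀, X₁, Y₀, Y₁, h⟩
    rw [keyPos_iff A B E Ψ hΨ]
    refine ⟨n, X₀, trivial, X₁, trivial, Y₀, Y₁, ?_⟩
    set A' := weight (tpow n (Ψ * Ψᴴ)) X₀ Y₁ * weight (tpow n (Ψ * Ψᴴ)) X₁ Y₀ with hA'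
    set B' := weight (tpow n (Ψ * Ψᴴ)) X₀ Y₀ * weight (tpow n (Ψ * Ψᴴ)) X₁ Y₁ with hB'
    set f := traceNorm ((X₀ ⊗ₖ Y₀) * (tpow n (Ψ * Ψᴴ)) * (X₁ ⊗ₖ Y₁)ᴴ) with hf
    have hA0 : 0 ≤ A' := mul_nonneg (w _ _ _) (w _ _ _)
    have hB0 : 0 ≤ B' := mul_nonneg (w _ _ _) (w _ _ _)
    have hfB : f ^ 2 ≤ B' := by
      have := Xor.fid_sq_le (copies n Ψ) X₀ X₁ Y₀ Y₁
      rw [copies_mul] at this
      exact this
    have hf0 : 0 < f ^ 2 := lt_of_le_of_lt (mul_nonneg (Real.rpow_nonneg hA0 _)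
      (Real.rpow_nonneg hB0 _)) h
    have hgoal : weight (tpow n (Ψ * Ψᴴ)) X₀ Y₀ * weight (tpow n (Ψ * Ψᴴ)) X₀ Y₁ *
        weight (tpow n (Ψ * Ψᴴ)) X₁ Y₀ * weight (tpow n (Ψ * Ψᴴ)) X₁ Y₁ = A' * B' := by
      rw [hA', hB']
      ring
    rw [hgoal]
    have hf4 : f ^ 4 = (f ^ 2) ^ 2 := by ring
    rw [hf4]
    have hBp : 0 < B' := hf0.trans_le hfB
    rcases hA0.eq_or_lt with h0 | h0
    · rw [← h0, zero_mul]
      positivity
    have hAB : A' ≤ B' := by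
      by_contra h9
      have h10 := Real.rpow_le_rpow hB0 (not_le.mp h9).le hc.le
      have h11 : B' ^ c * B' ^ (1 - c) = B' := by
        rw [← Real.rpow_add hBp]
        have : c + (1 - c) = 1 := by ring
        rw [this, Real.rpow_one]
      have h12 := mul_le_mul_of_nonneg_right h10 (Real.rpow_nonneg hB0 (1 - c))
      rw [h11] at h12
      linarith
    have h13 : A' * B' ≤ (A' ^ c * B' ^ (1 - c)) ^ 2 := by
      have e1 : (A' ^ c * B' ^ (1 - c)) ^ 2 = A' * B' * (B' ^ (1 - 2 * c) * A' ^ (2 * c - 1)) := by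
        have a1 : A' * A' ^ (2 * c - 1) = A' ^ (2 * c) := by
          nth_rewrite 1 [← Real.rpow_one A']
          rw [← Real.rpow_add h0]
          congr 1
          ring
        have a2 : B' * B' ^ (1 - 2 * c) = B' ^ (2 * (1 - c)) := by
          nth_rewrite 1 [← Real.rpow_one B']
          rw [← Real.rpow_add hBp]
          congr 1
          ring
        have a3 : (A' ^ c) ^ 2 = A' ^ (2 * c) := by
          rw [← Real.rpow_natCast, ← Real.rpow_mul hA0]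
          congr 1
          push_cast
          ring
        have a4 : (B' ^ (1 - c)) ^ 2 = B' ^ (2 * (1 - c)) := by
          rw [← Real.rpow_natCast, ← Real.rpow_mul hB0]
          congr 1
          push_cast
          ring
        rw [mul_pow, a3, a4, ← a1, ← a2]
        ring
      rw [e1]
      have e2 : 1 ≤ B' ^ (1 - 2 * c) * A' ^ (2 * c - 1) := by
        have : A' ^ (2 * c - 1) = (A' ^ (1 - 2 * c))⁻¹ := by
          rw [← Real.rpow_neg hA0]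
          congr 1
          ring
        rw [this, ← div_eq_mul_inv, one_le_div (Real.rpow_pos_of_pos h0 _)]
        exact Real.rpow_le_rpow hA0 hAB (by linarith)
      exact le_mul_of_one_le_right (mul_nonneg hA0 hB0) e2
    refine lt_of_le_of_lt h13 ?_
    exact pow_lt_pow_left₀ h (mul_nonneg (Real.rpow_nonneg hA0 _) (Real.rpow_nonneg hB0 _))
      two_ne_zero

end Metro

end Vale.Agent.P372
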