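import Vale.Agent.P372.Metro.Stack

open Matrix Kronecker
open scoped ComplexOrder MatrixOrder

set_option linter.unusedSectionVars false
set_option linter.unusedSimpArgs false

namespace Vale.Agent.P372

namespace Metro

variable {α β γ δ F : Type} [Fintype α] [DecidableEq α] [Fintype β] [DecidableEq β]
  [Fintype γ] [DecidableEq γ] [Fintype δ] [DecidableEq δ] [Fintype F] [DecidableEq F]

theorem jj_orth : (jj α β false false)ᴴ * jj α β true true = 0 := by
  have h : (emb α false)ᴴ * emb α true = 0 := by
    ext x y
    rw [mul_apply, Finset.sum_eq_zero]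
    · rfl
    · intro p _
      by_cases hp : p = (false, x)
      · subst hp
        simp [emb]
      · simp [emb, hp]
  rw [jj, jj, conjTranspose_kronecker, ← mul_kronecker_mul, h, zero_kronecker]

theorem jj_orth' : (jj α β true true)ᴴ * jj α β false false = 0 := by
  have := congrArg conjTranspose (jj_orth (α := α) (β := β))
  rwa [conjTranspose_mul, conjTranspose_conjTranspose, conjTranspose_zero] at this

/-- The generator. -/
def gg (α β : Type) [DecidableEq α] [DecidableEq β] :
    Matrix ((Bool × α) × (Bool × β)) ((Bool × α) × (Bool × β)) ℂ :=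
  zz α ⊗ₖ 1 + 1 ⊗ₖ zz β

theorem gg_herm : (gg α β).IsHermitian := by
  rw [gg, IsHermitian, conjTranspose_add, conjTranspose_kronecker, conjTranspose_kronecker,
    conjTranspose_one, conjTranspose_one, zz_herm.eq, zz_herm.eq]

theorem gg_jj' (i j : Bool) : (jj α β i j)ᴴ * gg α β = ((sg i + sg j : ℝ) : ℂ) • (jj α β i j)ᴴ := by
  have := congrArg conjTranspose (gg_jj (α := α) (β := β) i j)
  rw [conjTranspose_mul, conjTranspose_smul] at this
  rw [← gg, gg_herm.eq] at this
  rw [this]
  congr 1
  simp

/-- The observable. -/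
noncomputable def obs (W : Matrix (α × β) (α × β) ℂ) :
    Matrix ((Bool × α) × (Bool × β)) ((Bool × α) × (Bool × β)) ℂ :=
  Complex.I • (jj α β false false * Wᴴ * (jj α β true true)ᴴ) -
    Complex.I • (jj α β true true * W * (jj α β false false)ᴴ)

theorem obs_herm (W : Matrix (α × β) (α × β) ℂ) : (obs W).IsHermitian := by
  rw [IsHermitian, obs, conjTranspose_sub, conjTranspose_smul, conjTranspose_smul,
    conjTranspose_mul, conjTranspose_mul, conjTranspose_mul, conjTranspose_mul,
    conjTranspose_conjTranspose, conjTranspose_conjTranspose, conjTranspose_conjTranspose]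
  simp only [Complex.star_def, Complex.conj_I, neg_smul, Matrix.mul_assoc]
  abel

theorem obs_comm (W : Matrix (α × β) (α × β) ℂ) : gg α β * obs W - obs W * gg α β =
    (4 * Complex.I) • (jj α β false false * Wᴴ * (jj α β true true)ᴴ +
      jj α β true true * W * (jj α β false false)ᴴ) := by
  have h1 : gg α β * jj α β false false = (2 : ℂ) • jj α β false false := by
    rw [gg, gg_jj]
    congr 1
    simp only [sg]
    norm_num
  have h2 : gg α β * jj α β true true = (-2 : ℂ) • jj α β true true := by
    rw [gg, gg_jj]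
    congr 1
    simp only [sg]
    norm_num
  have h3 : (jj α β false false)ᴴ * gg α β = (2 : ℂ) • (jj α β false false)ᴴ := by
    rw [gg_jj']
    congr 1
    simp only [sg]
    norm_num
  have h4 : (jj α β true true)ᴴ * gg α β = (-2 : ℂ) • (jj α β true true)ᴴ := by
    rw [gg_jj']
    congr 1
    simp only [sg]
    norm_num
  rw [obs, Matrix.mul_sub, Matrix.sub_mul, Matrix.mul_smul, Matrix.mul_smul, Matrix.smul_mul,
    Matrix.smul_mul, ← Matrix.mul_assoc, ← Matrix.mul_assoc, h1, ← Matrix.mul_assoc,
    ← Matrix.mul_assoc, h2, Matrix.mul_assoc _ _ (gg α β), h4, Matrix.mul_assoc _ _ (gg α β), h3]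
  simp only [Matrix.smul_mul, Matrix.mul_smul, smul_add, smul_smul]
  module

theorem obs_sq (W : Matrix (α × β) (α × β) ℂ) : obs W * obs W =
    jj α β false false * (Wᴴ * W) * (jj α β false false)ᴴ +
      jj α β true true * (W * Wᴴ) * (jj α β true true)ᴴ := by
  have e1 : ∀ P Q : Matrix (α × β) (α × β) ℂ, (jj α β false false * P * (jj α β true true)ᴴ) *
      (jj α β false false * Q * (jj α β true true)ᴴ) = 0 := by
    intro P Q
    rw [Matrix.mul_assoc, Matrix.mul_assoc (jj α β false false) Q, ← Matrix.mul_assoc _ᴴ, jj_orth',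
      Matrix.zero_mul, Matrix.mul_zero]
  have e2 : ∀ P Q : Matrix (α × β) (α × β) ℂ, (jj α β true true * P * (jj α β false false)ᴴ) *
      (jj α β true true * Q * (jj α β false false)ᴴ) = 0 := by
    intro P Q
    rw [Matrix.mul_assoc, Matrix.mul_assoc (jj α β true true) Q, ← Matrix.mul_assoc _ᴴ, jj_orth,
      Matrix.zero_mul, Matrix.mul_zero]
  have e3 : ∀ P Q : Matrix (α × β) (α × β) ℂ, (jj α β false false * P * (jj α β true true)ᴴ) *
      (jj α β true true * Q * (jj α β false false)ᴴ) =
      jj α β false false * (P * Q) * (jj α β false false)ᴴ := by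
    intro P Q
    calc _ = jj α β false false * P * ((jj α β true true)ᴴ * jj α β true true) * Q *
          (jj α β false false)ᴴ := by simp only [Matrix.mul_assoc]
      _ = _ := by rw [jj_self, Matrix.mul_one]; simp only [Matrix.mul_assoc]
  have e4 : ∀ P Q : Matrix (α × β) (α × β) ℂ, (jj α β true true * P * (jj α β false false)ᴴ) *
      (jj α β false false * Q * (jj α β true true)ᴴ) =
      jj α β true true * (P * Q) * (jj α β true true)ᴴ := by
    intro P Q
    calc _ = jj α β true true * P * ((jj α β false false)ᴴ * jj α β false false) * Q *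
          (jj α β true true)ᴴ := by simp only [Matrix.mul_assoc]
      _ = _ := by rw [jj_self, Matrix.mul_one]; simp only [Matrix.mul_assoc]
  rw [obs, Matrix.mul_sub, Matrix.sub_mul, Matrix.sub_mul]
  simp only [Matrix.smul_mul, Matrix.mul_smul, e1, e2, e3, e4, smul_zero, smul_smul,
    Complex.I_mul_I]
  module

end Metro

end Vale.Agent.P372
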