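import Vale.Agent.P372.Metro.Defs
import Vale.Agent.P372.Bdl.B1

open Matrix Kronecker
open scoped ComplexOrder MatrixOrder

set_option linter.unusedSectionVars false
set_option linter.unusedSimpArgs false

namespace Vale.Agent.P372

namespace Metro

variable {I F : Type} [Fintype I] [DecidableEq I] [Fintype F] [DecidableEq F]

theorem near_mul (H : Matrix I I ℂ) (c d : ℂ) (hc : c * c = -(2 * d)) :
    (1 + c • H - d • (H * H)) * (1 - c • H - d • (H * H)) = 1 + (d * d) • (H * H * (H * H)) := by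
  simp only [Matrix.mul_add, Matrix.add_mul, Matrix.mul_sub, Matrix.sub_mul, Matrix.one_mul,
    Matrix.mul_one, smul_mul_assoc, mul_smul_comm, smul_smul, Matrix.mul_assoc]
  match_scalars <;> first | ring1 | linear_combination (-1 : ℂ) * hc

theorem trace_smul_one_sub {M : Matrix I I ℂ} (hM : M.PosSemidef) :
    (((M.trace.re : ℝ) : ℂ) • (1 : Matrix I I ℂ) - M).PosSemidef := by
  have h0 : 0 ≤ M.trace.re := re_trace_nonneg hM
  rcases h0.eq_or_lt with h | h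
  · have h1 : M.trace = 0 := by
      apply Complex.ext
      · exact h.symm
      · exact (Complex.le_def.mp hM.trace_nonneg).2.symm
    rw [hM.trace_eq_zero_iff.mp h1]
    simp [PosSemidef.zero]
  · have h1 := T1.one_sub_smul_posSemidef hM (c := (M.trace.re)⁻¹) (inv_nonneg.mpr h0)
      (by rw [inv_mul_cancel₀ h.ne'])
    have h2 := h1.smul (a := ((M.trace.re : ℝ) : ℂ)) (by exact_mod_cast h0)
    have h3 : ((M.trace.re : ℝ) : ℂ) • (1 - (((M.trace.re)⁻¹ : ℝ) : ℂ) • M) =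
        ((M.trace.re : ℝ) : ℂ) • (1 : Matrix I I ℂ) - M := by
      rw [smul_sub, smul_smul, ← Complex.ofReal_mul, mul_inv_cancel₀ h.ne', Complex.ofReal_one,
        one_smul]
    rwa [h3] at h2

/-- `W₀ = 1 + iεH - ε²H²/2` is nearly a contraction. -/
theorem norm_trace_le_near (H : Matrix I I ℂ) (hH : H.IsHermitian) :
    ∃ k : ℝ, 0 ≤ k ∧ ∀ (ε : ℝ) (M : Matrix I I ℂ),
      ‖((1 + (Complex.I * (ε : ℂ)) • H - ((ε : ℂ) ^ 2 / 2) • (H * H)) * M).trace‖ ≤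
        (1 + k * ε ^ 4) * traceNorm M := by
  have h4 : (H * H * (H * H)).PosSemidef := by
    have : H * H * (H * H) = (H * H)ᴴ * (H * H) := by
      rw [conjTranspose_mul, hH.eq]
    rw [this]
    exact posSemidef_conjTranspose_mul_self _
  set τ := (H * H * (H * H)).trace.re with hτ
  have hτ0 : 0 ≤ τ := re_trace_nonneg h4
  refine ⟨τ, hτ0, fun ε M => ?_⟩
  set W₀ : Matrix I I ℂ := 1 + (Complex.I * (ε : ℂ)) • H - ((ε : ℂ) ^ 2 / 2) • (H * H) with hW₀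
  set κ : ℝ := 1 + τ * ε ^ 4 with hκ
  have hκ1 : 1 ≤ κ := by rw [hκ]; nlinarith [mul_nonneg hτ0 (by positivity : 0 ≤ ε ^ 4)]
  have hκ0 : 0 < κ := by linarith
  have hW₀' : W₀ᴴ = 1 - (Complex.I * (ε : ℂ)) • H - ((ε : ℂ) ^ 2 / 2) • (H * H) := by
    rw [hW₀, conjTranspose_sub, conjTranspose_add, conjTranspose_one, conjTranspose_smul,
      conjTranspose_smul, conjTranspose_mul, hH.eq]
    have e1 : star (Complex.I * (ε : ℂ)) = -(Complex.I * (ε : ℂ)) := by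
      simp
    have e2 : star ((ε : ℂ) ^ 2 / 2) = (ε : ℂ) ^ 2 / 2 := by
      simp
    rw [e1, e2, neg_smul, ← sub_eq_add_neg]
  have hI : Complex.I * Complex.I = -1 := Complex.I_mul_I
  have key1 : W₀ * W₀ᴴ = 1 + ((ε : ℂ) ^ 2 / 2 * ((ε : ℂ) ^ 2 / 2)) • (H * H * (H * H)) := by
    rw [hW₀', hW₀]
    refine near_mul H _ _ ?_
    linear_combination ((ε : ℂ) ^ 2) * hI
  have key2 : W₀ᴴ * W₀ = 1 + ((ε : ℂ) ^ 2 / 2 * ((ε : ℂ) ^ 2 / 2)) • (H * H * (H * H)) := by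
    have := near_mul H (-(Complex.I * (ε : ℂ))) ((ε : ℂ) ^ 2 / 2) (by
      linear_combination ((ε : ℂ) ^ 2) * hI)
    rw [neg_smul, ← sub_eq_add_neg, sub_neg_eq_add] at this
    rw [hW₀', hW₀]
    exact this
  have hpsd : ((1 : Matrix I I ℂ) - (((κ⁻¹ : ℝ) : ℂ) * ((κ⁻¹ : ℝ) : ℂ)) •
      (1 + ((ε : ℂ) ^ 2 / 2 * ((ε : ℂ) ^ 2 / 2)) • (H * H * (H * H)))).PosSemidef := by
    have e1 : (1 : Matrix I I ℂ) - (((κ⁻¹ : ℝ) : ℂ) * ((κ⁻¹ : ℝ) : ℂ)) •
        (1 + ((ε : ℂ) ^ 2 / 2 * ((ε : ℂ) ^ 2 / 2)) • (H * H * (H * H))) =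
        ((1 - κ⁻¹ * κ⁻¹ * (1 + ε ^ 4 / 4 * τ) : ℝ) : ℂ) • (1 : Matrix I I ℂ) +
        ((κ⁻¹ * κ⁻¹ * (ε ^ 4 / 4) : ℝ) : ℂ) •
          (((τ : ℝ) : ℂ) • (1 : Matrix I I ℂ) - H * H * (H * H)) := by
      push_cast
      match_scalars <;> ring
    rw [e1]
    have hc1 : 0 ≤ 1 - κ⁻¹ * κ⁻¹ * (1 + ε ^ 4 / 4 * τ) := by
      have h1 : 1 + ε ^ 4 / 4 * τ ≤ κ * κ := by
        have : 0 ≤ τ * ε ^ 4 := mul_nonneg hτ0 (by positivity)
        rw [hκ]
        nlinarith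
      have h2 : κ⁻¹ * κ⁻¹ * (1 + ε ^ 4 / 4 * τ) ≤ κ⁻¹ * κ⁻¹ * (κ * κ) :=
        mul_le_mul_of_nonneg_left h1 (by positivity)
      have h3 : κ⁻¹ * κ⁻¹ * (κ * κ) = 1 := by field_simp
      linarith
    refine PosSemidef.add (PosSemidef.one.smul ?_) ((trace_smul_one_sub h4).smul ?_)
    · exact_mod_cast hc1
    · have : 0 ≤ κ⁻¹ * κ⁻¹ * (ε ^ 4 / 4) := by positivity
      exact_mod_cast this
  have hcontr : Contr (((κ⁻¹ : ℝ) : ℂ) • W₀) := by
    have hs : star ((κ⁻¹ : ℝ) : ℂ) = ((κ⁻¹ : ℝ) : ℂ) := by simp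
    constructor
    · rw [conjTranspose_smul, hs, smul_mul_assoc, mul_smul_comm, smul_smul, key1]
      exact hpsd
    · rw [conjTranspose_smul, hs, smul_mul_assoc, mul_smul_comm, smul_smul, key2]
      exact hpsd
  have h := norm_trace_mul_le hcontr M
  rw [smul_mul_assoc, trace_smul, smul_eq_mul, norm_mul, Complex.norm_real, Real.norm_eq_abs,
    abs_of_pos (inv_pos.mpr hκ0), inv_mul_le_iff₀ hκ0] at h
  exact h

theorem trace_expand (σ G K H : Matrix I I ℂ) (c d e : ℂ) :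
    ((1 + c • H - d • (H * H)) * ((1 + e • G + (e * e) • K) * σ * (1 - e • G + (e * e) • K))).trace =
      σ.trace + e * ((G * σ).trace - (σ * G).trace) + c * (H * σ).trace +
      (e * e) * ((K * σ).trace + (σ * K).trace - (G * σ * G).trace) +
      (c * e) * ((H * (G * σ)).trace - (H * (σ * G)).trace) - d * (H * H * σ).trace +
      (e * e * e) * ((G * σ * K).trace - (K * σ * G).trace) + (e * e * e * e) * (K * σ * K).trace +
      (c * (e * e)) * ((H * (K * σ)).trace + (H * (σ * K)).trace - (H * (G * σ * G)).trace) +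
      (c * (e * e * e)) * ((H * (G * σ * K)).trace - (H * (K * σ * G)).trace) +
      (c * (e * e * e * e)) * (H * (K * σ * K)).trace -
      (d * e) * ((H * H * (G * σ)).trace - (H * H * (σ * G)).trace) -
      (d * (e * e)) * ((H * H * (K * σ)).trace + (H * H * (σ * K)).trace -
        (H * H * (G * σ * G)).trace) -
      (d * (e * e * e)) * ((H * H * (G * σ * K)).trace - (H * H * (K * σ * G)).trace) -
      (d * (e * e * e * e)) * (H * H * (K * σ * K)).trace := by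
  simp only [Matrix.mul_add, Matrix.add_mul, Matrix.mul_sub, Matrix.sub_mul, Matrix.one_mul,
      Matrix.mul_one, smul_mul_assoc, mul_smul_comm, smul_smul, Matrix.mul_assoc, smul_add,
      smul_sub, trace_add, trace_sub, trace_smul, smul_eq_mul]
  ring

theorem trace_mul_im {σ H : Matrix I I ℂ} (hσ : σ.IsHermitian) (hH : H.IsHermitian) :
    (H * σ).trace.im = 0 := by
  have h : star (H * σ).trace = (H * σ).trace := by
    rw [← trace_conjTranspose, conjTranspose_mul, hσ.eq, hH.eq, trace_mul_comm]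
  exact Complex.conj_eq_iff_im.mp h

theorem near_expand {σ : Matrix I I ℂ} (hσ : σ.IsHermitian) (G K : Matrix I I ℂ)
    {H : Matrix I I ℂ} (hH : H.IsHermitian) :
    ∃ q : ℝ → ℝ, Continuous q ∧ ∀ ε : ℝ,
      ((1 + (Complex.I * (ε : ℂ)) • H - ((ε : ℂ) ^ 2 / 2) • (H * H)) *
        ((1 + (ε : ℂ) • G + ((ε : ℂ) * (ε : ℂ)) • K) * σ *
          (1 - (ε : ℂ) • G + ((ε : ℂ) * (ε : ℂ)) • K))).trace.re =
      σ.trace.re + ε ^ 2 * (((K * σ).trace + (σ * K).trace - (G * σ * G).trace).re +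
        (Complex.I * ((H * (G * σ)).trace - (H * (σ * G)).trace)).re -
        1 / 2 * (H * H * σ).trace.re) + ε ^ 3 * q ε := by
  set C3 : ℂ := ((G * σ * K).trace - (K * σ * G).trace) +
    Complex.I * ((H * (K * σ)).trace + (H * (σ * K)).trace - (H * (G * σ * G)).trace) -
    1 / 2 * ((H * H * (G * σ)).trace - (H * H * (σ * G)).trace) with hC3
  set C4 : ℂ := (K * σ * K).trace +
    Complex.I * ((H * (G * σ * K)).trace - (H * (K * σ * G)).trace) -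
    1 / 2 * ((H * H * (K * σ)).trace + (H * H * (σ * K)).trace -
        (H * H * (G * σ * G)).trace) with hC4
  set C5 : ℂ := Complex.I * (H * (K * σ * K)).trace -
    1 / 2 * ((H * H * (G * σ * K)).trace - (H * H * (K * σ * G)).trace) with hC5
  set C6 : ℂ := - (1 / 2 * (H * H * (K * σ * K)).trace) with hC6
  refine ⟨fun ε => C3.re + ε * C4.re + ε ^ 2 * C5.re + ε ^ 3 * C6.re, by fun_prop, fun ε => ?_⟩
  rw [trace_expand]
  have e1 : (G * σ).trace - (σ * G).trace = 0 := by rw [trace_mul_comm, sub_self]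
  have e2 : σ.trace + (ε : ℂ) * ((G * σ).trace - (σ * G).trace) +
      (Complex.I * (ε : ℂ)) * (H * σ).trace +
      ((ε : ℂ) * (ε : ℂ)) * ((K * σ).trace + (σ * K).trace - (G * σ * G).trace) +
      (Complex.I * (ε : ℂ) * (ε : ℂ)) * ((H * (G * σ)).trace - (H * (σ * G)).trace) -
      ((ε : ℂ) ^ 2 / 2) * (H * H * σ).trace +
      ((ε : ℂ) * (ε : ℂ) * (ε : ℂ)) * ((G * σ * K).trace - (K * σ * G).trace) +
      ((ε : ℂ) * (ε : ℂ) * (ε : ℂ) * (ε : ℂ)) * (K * σ * K).trace +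
      (Complex.I * (ε : ℂ) * ((ε : ℂ) * (ε : ℂ))) *
        ((H * (K * σ)).trace + (H * (σ * K)).trace - (H * (G * σ * G)).trace) +
      (Complex.I * (ε : ℂ) * ((ε : ℂ) * (ε : ℂ) * (ε : ℂ))) *
        ((H * (G * σ * K)).trace - (H * (K * σ * G)).trace) +
      (Complex.I * (ε : ℂ) * ((ε : ℂ) * (ε : ℂ) * (ε : ℂ) * (ε : ℂ))) * (H * (K * σ * K)).trace -
      ((ε : ℂ) ^ 2 / 2 * (ε : ℂ)) * ((H * H * (G * σ)).trace - (H * H * (σ * G)).trace) -
      ((ε : ℂ) ^ 2 / 2 * ((ε : ℂ) * (ε : ℂ))) * ((H * H * (K * σ)).trace +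
        (H * H * (σ * K)).trace - (H * H * (G * σ * G)).trace) -
      ((ε : ℂ) ^ 2 / 2 * ((ε : ℂ) * (ε : ℂ) * (ε : ℂ))) *
        ((H * H * (G * σ * K)).trace - (H * H * (K * σ * G)).trace) -
      ((ε : ℂ) ^ 2 / 2 * ((ε : ℂ) * (ε : ℂ) * (ε : ℂ) * (ε : ℂ))) *
        (H * H * (K * σ * K)).trace =
      σ.trace + (ε : ℂ) * (Complex.I * (H * σ).trace) +
      ((ε ^ 2 : ℝ) : ℂ) * (((K * σ).trace + (σ * K).trace - (G * σ * G).trace) +
        Complex.I * ((H * (G * σ)).trace - (H * (σ * G)).trace) -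
        ((1 / 2 : ℝ) : ℂ) * (H * H * σ).trace) +
      ((ε ^ 3 : ℝ) : ℂ) * (C3 + (ε : ℂ) * C4 + ((ε ^ 2 : ℝ) : ℂ) * C5 +
        ((ε ^ 3 : ℝ) : ℂ) * C6) := by
    rw [e1, hC3, hC4, hC5, hC6]
    push_cast
    ring
  rw [e2]
  have e3 : (Complex.I * (H * σ).trace).re = 0 := by
    rw [Complex.I_mul_re, trace_mul_im hσ hH, neg_zero]
  simp only [Complex.add_re, Complex.sub_re, Complex.re_ofReal_mul, e3]
  ring

theorem amgm4 {p q r t : ℝ} (hp : 0 ≤ p) (hq : 0 ≤ q) (hr : 0 ≤ r) (ht : 0 ≤ t) :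
    p * q * r * t ≤ ((p + q + r + t) / 4) ^ 4 := by
  have h1 : p * q ≤ ((p + q) / 2) ^ 2 := by nlinarith [sq_nonneg (p - q)]
  have h2 : r * t ≤ ((r + t) / 2) ^ 2 := by nlinarith [sq_nonneg (r - t)]
  have h3 : (p + q) / 2 * ((r + t) / 2) ≤ ((p + q + r + t) / 4) ^ 2 := by
    nlinarith [sq_nonneg (p + q - r - t)]
  calc p * q * r * t = (p * q) * (r * t) := by ring
    _ ≤ ((p + q) / 2) ^ 2 * ((r + t) / 2) ^ 2 :=
        mul_le_mul h1 h2 (mul_nonneg hr ht) (by positivity)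
    _ = ((p + q) / 2 * ((r + t) / 2)) ^ 2 := by ring
    _ ≤ (((p + q + r + t) / 4) ^ 2) ^ 2 :=
        pow_le_pow_left₀ (by positivity) h3 2
    _ = _ := by ring

variable {C D : Type} [Fintype C] [DecidableEq C] [Fintype D] [DecidableEq D]

theorem hs_kron (Φ : Matrix (C × D) F ℂ) (U : Matrix C C ℂ) (V : Matrix D D ℂ) :
    hs ((U ⊗ₖ V) * Φ) = ((Φ * Φᴴ) * ((Uᴴ * U) ⊗ₖ (Vᴴ * V))).trace.re := by
  rw [hs_eq_re, conjTranspose_mul, mul_kronecker_mul, ← conjTranspose_kronecker]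
  congr 1
  calc (Φᴴ * (U ⊗ₖ V)ᴴ * ((U ⊗ₖ V) * Φ)).trace
      = ((Φᴴ * ((U ⊗ₖ V)ᴴ * (U ⊗ₖ V))) * Φ).trace := by simp only [Matrix.mul_assoc]
    _ = (Φ * (Φᴴ * ((U ⊗ₖ V)ᴴ * (U ⊗ₖ V)))).trace := trace_mul_comm _ _
    _ = _ := by simp only [Matrix.mul_assoc]

theorem sum_hs (Φ : Matrix (C × D) F ℂ) {a : Matrix C C ℂ} {b : Matrix D D ℂ}
    (ha : a.IsHermitian) (hb : b.IsHermitian) (ε : ℝ) :
    hs (((1 + (ε : ℂ) • a) ⊗ₖ (1 + (ε : ℂ) • b)) * Φ) +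
      hs (((1 + (ε : ℂ) • a) ⊗ₖ (1 - (ε : ℂ) • b)) * Φ) +
      hs (((1 - (ε : ℂ) • a) ⊗ₖ (1 + (ε : ℂ) • b)) * Φ) +
      hs (((1 - (ε : ℂ) • a) ⊗ₖ (1 - (ε : ℂ) • b)) * Φ) =
    4 * ((Φ * Φᴴ).trace.re + ε ^ 2 * (((Φ * Φᴴ) * ((a * a) ⊗ₖ 1)).trace.re +
      ((Φ * Φᴴ) * (1 ⊗ₖ (b * b))).trace.re) +
        ε ^ 4 * ((Φ * Φᴴ) * ((a * a) ⊗ₖ (b * b))).trace.re) := by
  have hs : ∀ x : ℝ, star ((x : ℂ)) = (x : ℂ) := fun x => by simp
  have e1 : (1 + (ε : ℂ) • a)ᴴ * (1 + (ε : ℂ) • a) = 1 + (2 * (ε : ℂ)) • a +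
      ((ε : ℂ) ^ 2) • (a * a) := by
    rw [conjTranspose_add, conjTranspose_smul, conjTranspose_one, hs, ha.eq]
    simp only [Matrix.mul_add, Matrix.add_mul, Matrix.one_mul, Matrix.mul_one, smul_mul_assoc,
      mul_smul_comm, smul_smul]
    match_scalars <;> ring
  have e2 : (1 - (ε : ℂ) • a)ᴴ * (1 - (ε : ℂ) • a) = 1 - (2 * (ε : ℂ)) • a +
      ((ε : ℂ) ^ 2) • (a * a) := by
    rw [conjTranspose_sub, conjTranspose_smul, conjTranspose_one, hs, ha.eq]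
    simp only [Matrix.mul_sub, Matrix.sub_mul, Matrix.one_mul, Matrix.mul_one, smul_mul_assoc,
      mul_smul_comm, smul_smul]
    match_scalars <;> ring
  have e3 : (1 + (ε : ℂ) • b)ᴴ * (1 + (ε : ℂ) • b) = 1 + (2 * (ε : ℂ)) • b +
      ((ε : ℂ) ^ 2) • (b * b) := by
    rw [conjTranspose_add, conjTranspose_smul, conjTranspose_one, hs, hb.eq]
    simp only [Matrix.mul_add, Matrix.add_mul, Matrix.one_mul, Matrix.mul_one, smul_mul_assoc,
      mul_smul_comm, smul_smul]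
    match_scalars <;> ring
  have e4 : (1 - (ε : ℂ) • b)ᴴ * (1 - (ε : ℂ) • b) = 1 - (2 * (ε : ℂ)) • b +
      ((ε : ℂ) ^ 2) • (b * b) := by
    rw [conjTranspose_sub, conjTranspose_smul, conjTranspose_one, hs, hb.eq]
    simp only [Matrix.mul_sub, Matrix.sub_mul, Matrix.one_mul, Matrix.mul_one, smul_mul_assoc,
      mul_smul_comm, smul_smul]
    match_scalars <;> ring
  rw [hs_kron, hs_kron, hs_kron, hs_kron, e1, e2, e3, e4, ← Complex.add_re, ← Complex.add_re,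
    ← Complex.add_re, ← trace_add, ← trace_add, ← trace_add, ← Matrix.mul_add, ← Matrix.mul_add,
    ← Matrix.mul_add]
  have e5 : ((1 + (2 * (ε : ℂ)) • a + ((ε : ℂ) ^ 2) • (a * a)) ⊗ₖ
        (1 + (2 * (ε : ℂ)) • b + ((ε : ℂ) ^ 2) • (b * b)) +
      (1 + (2 * (ε : ℂ)) • a + ((ε : ℂ) ^ 2) • (a * a)) ⊗ₖ
        (1 - (2 * (ε : ℂ)) • b + ((ε : ℂ) ^ 2) • (b * b)) +
      (1 - (2 * (ε : ℂ)) • a + ((ε : ℂ) ^ 2) • (a * a)) ⊗ₖ
        (1 + (2 * (ε : ℂ)) • b + ((ε : ℂ) ^ 2) • (b * b)) +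
      (1 - (2 * (ε : ℂ)) • a + ((ε : ℂ) ^ 2) • (a * a)) ⊗ₖ
        (1 - (2 * (ε : ℂ)) • b + ((ε : ℂ) ^ 2) • (b * b)) : Matrix (C × D) (C × D) ℂ) =
      (4 : ℂ) • (1 + ((ε : ℂ) ^ 2) • ((a * a) ⊗ₖ 1 + 1 ⊗ₖ (b * b)) +
        ((ε : ℂ) ^ 4) • ((a * a) ⊗ₖ (b * b))) := by
    rw [← one_kronecker_one (m := C) (n := D) (α := ℂ)]
    ext ⟨i, j⟩ ⟨k, l⟩
    simp only [kroneckerMap_apply, Matrix.add_apply, Matrix.sub_apply, Matrix.smul_apply,
      smul_eq_mul]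
    ring
  rw [e5, mul_smul_comm, trace_smul, Matrix.mul_add, Matrix.mul_add, Matrix.mul_one, mul_smul_comm,
    mul_smul_comm, trace_add, trace_add, trace_smul, trace_smul, Matrix.mul_add, trace_add]
  have e6 : (4 : ℂ) = ((4 : ℝ) : ℂ) := by norm_num
  simp only [smul_eq_mul, ← Complex.ofReal_pow, e6, Complex.re_ofReal_mul, Complex.add_re]

/-- The test is passed by `1 ± εa`, `1 ± εb` for small `ε`. -/
theorem exists_test (Φ : Matrix (C × D) F ℂ) {a : Matrix C C ℂ} {b : Matrix D D ℂ}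
    (ha : a.IsHermitian) (hb : b.IsHermitian) {H : Matrix (C × D) (C × D) ℂ}
    (hH : H.IsHermitian)
    (h : 4 * ((Φ * Φᴴ) * (H * H)).trace.re * (((Φ * Φᴴ) * ((a * a) ⊗ₖ 1)).trace.re +
      ((Φ * Φᴴ) * (1 ⊗ₖ (b * b))).trace.re) <
      ‖((Φ * Φᴴ) * ((a ⊗ₖ 1 + 1 ⊗ₖ b) * H - H * (a ⊗ₖ 1 + 1 ⊗ₖ b))).trace‖ ^ 2) :
    ∃ ε : ℝ, hs (((1 + (ε : ℂ) • a) ⊗ₖ (1 + (ε : ℂ) • b)) * Φ) *
      hs (((1 + (ε : ℂ) • a) ⊗ₖ (1 - (ε : ℂ) • b)) * Φ) *
      hs (((1 - (ε : ℂ) • a) ⊗ₖ (1 + (ε : ℂ) • b)) * Φ) *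
      hs (((1 - (ε : ℂ) • a) ⊗ₖ (1 - (ε : ℂ) • b)) * Φ) <
      traceNorm (((1 + (ε : ℂ) • a) ⊗ₖ (1 + (ε : ℂ) • b)) * (Φ * Φᴴ) *
        ((1 - (ε : ℂ) • a) ⊗ₖ (1 - (ε : ℂ) • b))ᴴ) ^ 4 := by
  set σ := Φ * Φᴴ with hσdef
  have hσ : σ.IsHermitian := by
    rw [IsHermitian, hσdef, conjTranspose_mul, conjTranspose_conjTranspose]
  set G : Matrix (C × D) (C × D) ℂ := a ⊗ₖ 1 + 1 ⊗ₖ b with hG
  set K : Matrix (C × D) (C × D) ℂ := a ⊗ₖ b with hK
  have hGh : Gᴴ = G := by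
    rw [hG, conjTranspose_add, conjTranspose_kronecker, conjTranspose_kronecker, ha.eq, hb.eq,
      conjTranspose_one, conjTranspose_one]
  have hGG : G * G = (a * a) ⊗ₖ 1 + 1 ⊗ₖ (b * b) + (2 : ℂ) • K := by
    rw [hG, hK, Matrix.add_mul, Matrix.mul_add, Matrix.mul_add, ← mul_kronecker_mul,
      ← mul_kronecker_mul, ← mul_kronecker_mul, ← mul_kronecker_mul, Matrix.one_mul,
      Matrix.mul_one, Matrix.mul_one, Matrix.one_mul, two_smul]
    simp only [Matrix.mul_one, Matrix.one_mul]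
    abel
  set v : ℝ := (σ * ((a * a) ⊗ₖ 1)).trace.re + (σ * (1 ⊗ₖ (b * b))).trace.re with hv
  set hh : ℝ := (σ * (H * H)).trace.re with hhh
  set z : ℂ := (σ * (G * H - H * G)).trace with hz
  have hzre : z.re = 0 := by
    have h1 : star z = -z := by
      rw [hz, ← trace_conjTranspose, conjTranspose_mul, conjTranspose_sub, conjTranspose_mul,
        conjTranspose_mul, hσ.eq, hGh, hH.eq, trace_mul_comm, ← trace_neg, ← Matrix.mul_neg,
        neg_sub]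
    have h2 := congrArg Complex.re h1
    simp at h2
    linarith
  have hz2 : ‖z‖ ^ 2 = z.im ^ 2 := by
    rw [← Complex.normSq_eq_norm_sq, Complex.normSq_apply, hzre]
    ring
  have hpsd : ∀ M : Matrix (C × D) (C × D) ℂ, M.IsHermitian → 0 ≤ (σ * (M * M)).trace.re := by
    intro M hM
    have e : (σ * (M * M)).trace = ((M * Φ)ᴴ * (M * Φ)).trace := by
      rw [hσdef, conjTranspose_mul, hM.eq, trace_mul_comm, ← Matrix.mul_assoc, trace_mul_comm,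
        ← Matrix.mul_assoc]
      simp only [Matrix.mul_assoc]
    rw [e, ← hs_eq_re]
    exact hs_nonneg _
  have hh0 : 0 ≤ hh := hpsd H hH
  have hv0 : 0 ≤ v := by
    have h1 := hpsd (a ⊗ₖ 1) (by rw [IsHermitian, conjTranspose_kronecker, ha.eq, conjTranspose_one])
    have h2 := hpsd (1 ⊗ₖ b) (by rw [IsHermitian, conjTranspose_kronecker, hb.eq, conjTranspose_one])
    rw [← mul_kronecker_mul, Matrix.one_mul] at h1 h2
    exact add_nonneg h1 h2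
  rw [hz2] at h
  obtain ⟨t, ht⟩ : ∃ t : ℝ, 2 * v < t * z.im - 1 / 2 * t ^ 2 * hh := by
    rcases hh0.eq_or_lt with h0 | h0
    · rw [← h0] at h ⊢
      have hne : z.im ≠ 0 := by
        rintro h1
        rw [h1] at h
        norm_num at h
      refine ⟨(2 * v + 1) / z.im, ?_⟩
      rw [div_mul_cancel₀ _ hne]
      linarith
    · refine ⟨z.im / hh, ?_⟩
      have e : z.im / hh * z.im - 1 / 2 * (z.im / hh) ^ 2 * hh = z.im ^ 2 / (2 * hh) := by
        field_simp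
        ring
      rw [e, lt_div_iff₀ (by positivity)]
      nlinarith
  set H' : Matrix (C × D) (C × D) ℂ := (t : ℂ) • H with hH'
  have hH'h : H'.IsHermitian := by
    rw [IsHermitian, hH', conjTranspose_smul, hH.eq]
    simp
  obtain ⟨q, hqc, hq⟩ := near_expand hσ G K hH'h
  obtain ⟨k, hk0, hk⟩ := norm_trace_le_near H' hH'h
  set m : ℝ := (((K * σ).trace + (σ * K).trace - (G * σ * G).trace).re +
        (Complex.I * ((H' * (G * σ)).trace - (H' * (σ * G)).trace)).re -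
        1 / 2 * (H' * H' * σ).trace.re) with hm
  set s : ℝ := σ.trace.re with hs
  set c4 : ℝ := (σ * ((a * a) ⊗ₖ (b * b))).trace.re with hc4
  have hmv : v < m := by
    have e1 : ((K * σ).trace + (σ * K).trace - (G * σ * G).trace) =
        -((σ * ((a * a) ⊗ₖ 1)).trace + (σ * (1 ⊗ₖ (b * b))).trace) := by
      have h1 : (G * σ * G).trace = (σ * (G * G)).trace := by
        rw [Matrix.mul_assoc, trace_mul_comm, Matrix.mul_assoc]
      rw [h1, hGG, Matrix.mul_add, Matrix.mul_add, trace_add, trace_add, mul_smul_comm, trace_smul,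
        trace_mul_comm K σ, smul_eq_mul]
      ring
    have e2 : (H' * (G * σ)).trace - (H' * (σ * G)).trace = -((t : ℂ) * z) := by
      have h1 : (H' * (G * σ)).trace = (t : ℂ) * (σ * (H * G)).trace := by
        rw [hH', smul_mul_assoc, trace_smul, smul_eq_mul, ← Matrix.mul_assoc,
          trace_mul_comm (H * G) σ]
      have h2 : (H' * (σ * G)).trace = (t : ℂ) * (σ * (G * H)).trace := by
        rw [hH', smul_mul_assoc, trace_smul, smul_eq_mul, trace_mul_comm, Matrix.mul_assoc]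
      rw [h1, h2, hz, Matrix.mul_sub, trace_sub]
      ring
    have e3 : (H' * H' * σ).trace.re = t ^ 2 * hh := by
      have h1 : H' * H' * σ = ((t ^ 2 : ℝ) : ℂ) • (H * H * σ) := by
        rw [hH']
        simp only [smul_mul_assoc, mul_smul_comm, smul_smul]
        push_cast
        rw [sq]
      rw [h1, trace_smul, smul_eq_mul, Complex.re_ofReal_mul, trace_mul_comm (H * H) σ]
    rw [hm, e1, e2, e3]
    have e4 : (Complex.I * -((t : ℂ) * z)).re = t * z.im := by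
      simp
    rw [e4, Complex.neg_re, Complex.add_re, ← hv]
    linarith
  -- the choice of ε
  let g : ℝ → ℝ := fun ε => (m - v) + ε * q ε - ε ^ 2 * (k * s + c4) - ε ^ 4 * (k * v) -
    ε ^ 6 * (k * c4)
  have hg : Continuous g := by fun_prop
  have hg0 : 0 < g 0 := by
    simp only [g]
    norm_num
    linarith
  obtain ⟨ε, hε, hgε⟩ : ∃ ε : ℝ, 0 < ε ∧ 0 < g ε := by
    have h1 : ∀ᶠ ε in nhds (0 : ℝ), 0 < g ε := (hg.tendsto 0).eventually (lt_mem_nhds hg0)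
    obtain ⟨ε, h2, h3⟩ := ((h1.filter_mono nhdsWithin_le_nhds).and
      (self_mem_nhdsWithin : Set.Ioi (0 : ℝ) ∈ nhdsWithin 0 (Set.Ioi 0))).exists
    exact ⟨ε, h3, h2⟩
  refine ⟨ε, ?_⟩
  have hU : (1 + (ε : ℂ) • a) ⊗ₖ (1 + (ε : ℂ) • b) =
      (1 + (ε : ℂ) • G + ((ε : ℂ) * (ε : ℂ)) • K : Matrix (C × D) (C × D) ℂ) := by
    rw [hG, hK, ← one_kronecker_one (m := C) (n := D) (α := ℂ)]
    ext ⟨i, j⟩ ⟨i', j'⟩
    simp only [kroneckerMap_apply, Matrix.add_apply, Matrix.smul_apply, smul_eq_mul]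
    ring
  have hV : ((1 - (ε : ℂ) • a) ⊗ₖ (1 - (ε : ℂ) • b))ᴴ =
      (1 - (ε : ℂ) • G + ((ε : ℂ) * (ε : ℂ)) • K : Matrix (C × D) (C × D) ℂ) := by
    have h1 : (1 - (ε : ℂ) • a)ᴴ = 1 - (ε : ℂ) • a := by
      rw [conjTranspose_sub, conjTranspose_smul, conjTranspose_one, ha.eq]
      simp
    have h2 : (1 - (ε : ℂ) • b)ᴴ = 1 - (ε : ℂ) • b := by
      rw [conjTranspose_sub, conjTranspose_smul, conjTranspose_one, hb.eq]
      simp
    rw [conjTranspose_kronecker, h1, h2, hG, hK, ← one_kronecker_one (m := C) (n := D) (α := ℂ)]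
    ext ⟨i, j⟩ ⟨i', j'⟩
    simp only [kroneckerMap_apply, Matrix.add_apply, Matrix.sub_apply, Matrix.smul_apply,
      smul_eq_mul]
    ring
  have hsum := sum_hs Φ ha hb ε
  rw [← hσdef, ← hs, ← hv, ← hc4] at hsum
  have hN := hq ε
  have hle := (Complex.re_le_norm _).trans (hk ε ((1 + (ε : ℂ) • G + ((ε : ℂ) * (ε : ℂ)) • K) * σ *
          (1 - (ε : ℂ) • G + ((ε : ℂ) * (ε : ℂ)) • K)))
  rw [hN] at hle
  set T := traceNorm ((1 + (ε : ℂ) • G + ((ε : ℂ) * (ε : ℂ)) • K) * σ *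
          (1 - (ε : ℂ) • G + ((ε : ℂ) * (ε : ℂ)) • K)) with hT
  have hTe : traceNorm (((1 + (ε : ℂ) • a) ⊗ₖ (1 + (ε : ℂ) • b)) * σ *
        ((1 - (ε : ℂ) • a) ⊗ₖ (1 - (ε : ℂ) • b))ᴴ) = T := by
    rw [hU, hV]
  rw [hTe]
  have hkk : 0 < 1 + k * ε ^ 4 := by positivity
  have hmain : s + ε ^ 2 * v + ε ^ 4 * c4 < T := by
    have h1 : (1 + k * ε ^ 4) * (s + ε ^ 2 * v + ε ^ 4 * c4) < (1 + k * ε ^ 4) * T := by
      refine lt_of_lt_of_le ?_ hle
      have h2 : s + ε ^ 2 * m + ε ^ 3 * q ε - (1 + k * ε ^ 4) * (s + ε ^ 2 * v + ε ^ 4 * c4) =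
          ε ^ 2 * g ε := by
        simp only [g]
        ring
      have h3 : 0 < ε ^ 2 * g ε := by positivity
      linarith
    exact lt_of_mul_lt_mul_left h1 hkk.le
  refine (amgm4 (hs_nonneg _) (hs_nonneg _) (hs_nonneg _) (hs_nonneg _)).trans_lt ?_
  rw [hsum]
  have e : 4 * (s + ε ^ 2 * v + ε ^ 4 * c4) / 4 = s + ε ^ 2 * v + ε ^ 4 * c4 := by ring
  have hnn : 0 ≤ s + ε ^ 2 * v + ε ^ 4 * c4 := by
    have h1 : 0 ≤ 4 * (s + ε ^ 2 * v + ε ^ 4 * c4) := by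
      rw [← hsum]
      exact add_nonneg (add_nonneg (add_nonneg (hs_nonneg _) (hs_nonneg _)) (hs_nonneg _))
        (hs_nonneg _)
    linarith
  rw [e]
  exact pow_lt_pow_left₀ hmain hnn (by norm_num)

end Metro

end Vale.Agent.P372
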