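import Vale.Agent.P372.Metro.Bound

open Matrix Kronecker
open scoped ComplexOrder MatrixOrder

set_option linter.unusedSectionVars false
set_option linter.unusedSimpArgs false

namespace Vale.Agent.P372

namespace Metro

variable {A B C D E I F : Type} [Fintype A] [DecidableEq A] [Fintype B] [DecidableEq B]
  [Fintype C] [DecidableEq C] [Fintype D] [DecidableEq D] [Fintype E] [DecidableEq E]
  [Fintype I] [DecidableEq I] [Fintype F] [DecidableEq F]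

/-- The nearly perfect flagged filtered state. -/
theorem near_stk (Ψ : Matrix (A × B) E ℂ) (h : 0 < distillableKey Ψ) {e : ℝ} (he : 0 < e)
    (he1 : e < 1 / 4) :
    ∃ n : ℕ, 1 ≤ n ∧ ∃ (c P Q : ℝ) (X : Bool → Matrix (Fin n → A) (Fin n → A) ℂ)
      (Y : Bool → Matrix (Fin n → B) (Fin n → B) ℂ), 0 < c ∧ c * (1 - 2 * e) ≤ P ∧
      0 ≤ Q ∧ Q ≤ 2 * e * c ∧ (filtered n (Ψ * Ψᴴ) (stk X) (stk Y)).trace.re = P + Q ∧
      ((filtered n (Ψ * Ψᴴ) (stk X) (stk Y)) * (gg _ _ * gg _ _)).trace.re = 4 * P ∧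
      ((filtered n (Ψ * Ψᴴ) (stk X) (stk Y)) * (zz _ ⊗ₖ zz _)).trace.re = P - Q ∧
      16 * (P - 2 * e * c) ^ 2 ≤ P * qfi (filtered n (Ψ * Ψᴴ) (stk X) (stk Y)) (gg _ _) := by
  obtain ⟨n, hn, c, X₀, X₁, Y₀, Y₁, hc, h1, h2, h3, h4, h5⟩ := near_of_pos Ψ h he
  refine ⟨n, hn, c, weight (tpow n (Ψ * Ψᴴ)) X₀ Y₀ + weight (tpow n (Ψ * Ψᴴ)) X₁ Y₁,
    weight (tpow n (Ψ * Ψᴴ)) X₀ Y₁ + weight (tpow n (Ψ * Ψᴴ)) X₁ Y₀,
    fun i => if i then X₁ else X₀, fun i => if i then Y₁ else Y₀, hc, ?_, ?_, ?_, ?_, ?_, ?_, ?_⟩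
  · have g1 := abs_le.mp h1
    have g2 := abs_le.mp h2
    linarith
  · have w : ∀ X Y, 0 ≤ weight (tpow n (Ψ * Ψᴴ)) X Y := by
      intro X Y
      rw [weight, ← copies_mul]
      have : (X ⊗ₖ Y) * (copies n Ψ * (copies n Ψ)ᴴ) * (X ⊗ₖ Y)ᴴ =
          ((copies n Ψ)ᴴ * (X ⊗ₖ Y)ᴴ)ᴴ * ((copies n Ψ)ᴴ * (X ⊗ₖ Y)ᴴ) := by
        rw [conjTranspose_mul, conjTranspose_conjTranspose, conjTranspose_conjTranspose]
        simp only [Matrix.mul_assoc]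
      rw [this, ← hs_eq_re]
      exact hs_nonneg _
    linarith [w X₀ Y₁, w X₁ Y₀]
  · linarith
  · rw [filtered, trace_one]
    simp only [pw, weight]
    norm_num
    ring
  · rw [filtered, trace_gg]
    simp only [pw, weight]
    norm_num
  · rw [filtered, trace_kk]
    simp only [pw, weight]
    norm_num
    ring
  · have h6 := qfi_ge (copies n Ψ) (fun i : Bool => if i then X₁ else X₀)
      (fun i : Bool => if i then Y₁ else Y₀)
    rw [copies_mul] at h6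
    have h9 : 64 * traceNorm ((X₀ ⊗ₖ Y₀) * (tpow n (Ψ * Ψᴴ)) * (X₁ ⊗ₖ Y₁)ᴴ) ^ 2 ≤
        (weight (tpow n (Ψ * Ψᴴ)) X₀ Y₀ + weight (tpow n (Ψ * Ψᴴ)) X₁ Y₁) *
        qfi (filtered n (Ψ * Ψᴴ) (stk fun i => if i then X₁ else X₀)
          (stk fun i => if i then Y₁ else Y₀)) (gg _ _) := h6
    have h7 : 0 ≤ (weight (tpow n (Ψ * Ψᴴ)) X₀ Y₀ + weight (tpow n (Ψ * Ψᴴ)) X₁ Y₁ -
        2 * (e * c)) / 2 := by
      have g1 := abs_le.mp h1
      have g2 := abs_le.mp h2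
      nlinarith
    have h8 := pow_le_pow_left₀ h7 h5 2
    refine le_trans ?_ h9
    linarith

end Metro

end Vale.Agent.P372
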