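import Vale.Agent.P372.Metro.Qfi

open Matrix Kronecker Filter Topology
open scoped ComplexOrder MatrixOrder

set_option linter.unusedSectionVars false
set_option linter.unusedSimpArgs false
set_option linter.all false

namespace Vale.Agent.P372

namespace Metro

variable {A B E : Type} [Fintype A] [DecidableEq A] [Fintype B] [DecidableEq B]
  [Fintype E] [DecidableEq E]

/-- A protocol with error at most `e` has a transcript whose key bit is nearly perfect. -/
theorem near_of_errorLE (Ψ : Matrix (A × B) E ℂ) {ℓ : ℕ} (i₀ : Fin ℓ)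
    (π : Protocol (Fin ℓ → Bool) A B) (hπ : π.Valid) {e : ℝ} (h : π.ErrorLE Ψ e) :
    ∃ (c : ℝ) (X₀ X₁ : Matrix A A ℂ) (Y₀ Y₁ : Matrix B B ℂ), 0 < c ∧
      |wt (Ψ * Ψᴴ) X₀ Y₀ - c / 2| ≤ e * c ∧ |wt (Ψ * Ψᴴ) X₁ Y₁ - c / 2| ≤ e * c ∧
      wt (Ψ * Ψᴴ) X₀ Y₁ ≤ e * c ∧ wt (Ψ * Ψᴴ) X₁ Y₀ ≤ e * c ∧
      (wt (Ψ * Ψᴴ) X₀ Y₀ + wt (Ψ * Ψᴴ) X₁ Y₁ - 2 * (e * c)) / 2 ≤
        traceNorm ((X₀ ⊗ₖ Y₀) * (Ψ * Ψᴴ) * (X₁ ⊗ₖ Y₁)ᴴ) := by
  obtain ⟨σ, hσ, hσ1, hsum⟩ := h
  obtain ⟨hA, hB⟩ := eff_psd π hπ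
  -- the error and the weight of a transcript
  set err : π.Transcript → ℝ := fun t => ∑ k, ∑ l, traceNorm (eve Ψ (π.effA t k) (π.effB t l) -
      if k = l then ((Fintype.card (Fin ℓ → Bool) : ℂ)⁻¹) • σ t else 0) with herr
  have herr0 : ∀ t, 0 ≤ err t := fun t =>
    Finset.sum_nonneg fun k _ => Finset.sum_nonneg fun l _ => traceNorm_nonneg _
  have hc0 : ∀ t, 0 ≤ (σ t).trace.re := fun t => re_trace_nonneg (hσ t)
  have hc1 : ∑ t, (σ t).trace.re = 1 := by
    rw [← Complex.re_sum, hσ1, Complex.one_re]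
  obtain ⟨t, ht0, ht⟩ : ∃ t, 0 < (σ t).trace.re ∧ err t ≤ e * (σ t).trace.re := by
    by_contra hcon
    push Not at hcon
    have h1 : ∑ t, e * (σ t).trace.re < ∑ t, err t := by
      refine Finset.sum_lt_sum (fun t _ => ?_) ?_
      · rcases (hc0 t).eq_or_lt with h | h
        · rw [← h, mul_zero]
          exact herr0 t
        · exact (hcon t h).le
      · by_contra hno
        push Not at hno
        have : ∀ t, (σ t).trace.re = 0 := by
          intro t
          by_contra hne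
          have hpos : 0 < (σ t).trace.re := lt_of_le_of_ne (hc0 t) (Ne.symm hne)
          exact absurd (hcon t hpos) (not_lt.mpr (hno t (Finset.mem_univ _)))
        simp only [this, Finset.sum_const_zero] at hc1
        norm_num at hc1
    rw [← Finset.mul_sum, hc1] at h1
    linarith only [hsum, h1]
  set c := (σ t).trace.re with hc
  -- the effects for one bit of the key
  let M : Bool → Matrix A A ℂ := fun b => ∑ k, if k i₀ = b then π.effA t k else 0
  let N : Bool → Matrix B B ℂ := fun b => ∑ k, if k i₀ = b then π.effB t k else 0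
  have hM : ∀ b, (M b).PosSemidef := fun b => posSemidef_sum _ fun k _ => by
    split_ifs
    · exact hA t k
    · exact PosSemidef.zero
  have hN : ∀ b, (N b).PosSemidef := fun b => posSemidef_sum _ fun k _ => by
    split_ifs
    · exact hB t k
    · exact PosSemidef.zero
  have hR : ∀ b b', eve Ψ (M b) (N b') = ∑ k, ∑ l, if k i₀ = b ∧ l i₀ = b' then
      eve Ψ (π.effA t k) (π.effB t l) else 0 := by
    intro b b'
    change eve Ψ (∑ k, if k i₀ = b then π.effA t k else 0)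
      (∑ k, if k i₀ = b' then π.effB t k else 0) = _
    rw [eve_sum_left]
    refine Finset.sum_congr rfl fun k _ => ?_
    rw [eve_sum_right]
    refine Finset.sum_congr rfl fun l _ => ?_
    by_cases h1 : k i₀ = b
    · by_cases h2 : l i₀ = b'
      · rw [if_pos h1, if_pos h2, if_pos ⟨h1, h2⟩]
      · have h3 : ¬ (k i₀ = b ∧ l i₀ = b') := fun h => h2 h.2
        rw [if_neg h2, if_neg h3, eve_zero_right]
    · have h3 : ¬ (k i₀ = b ∧ l i₀ = b') := fun h => h1 h.1
      rw [if_neg h1, if_neg h3, eve_zero_left]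
  have hS : ∀ b b', ∑ k : Fin ℓ → Bool, ∑ l : Fin ℓ → Bool, (if k i₀ = b ∧ l i₀ = b' then
      (if k = l then ((Fintype.card (Fin ℓ → Bool) : ℂ)⁻¹) • σ t else 0) else 0) =
      if b = b' then (1 / 2 : ℂ) • σ t else 0 := by
    intro b b'
    have h1 : ∀ k : Fin ℓ → Bool, ∑ l : Fin ℓ → Bool, (if k i₀ = b ∧ l i₀ = b' then
      (if k = l then ((Fintype.card (Fin ℓ → Bool) : ℂ)⁻¹) • σ t else 0) else 0) =
      (if b = b' then (if k i₀ = b then ((Fintype.card (Fin ℓ → Bool) : ℂ)⁻¹) else 0) else 0) •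
        σ t := by
      intro k
      rw [Finset.sum_eq_single k]
      · by_cases h2 : k i₀ = b
        · subst h2
          by_cases h3 : k i₀ = b'
          · simp only [h3, and_self, ↓reduceIte, Fintype.card_pi, Fintype.card_bool, Finset.prod_const, Finset.card_univ, Fintype.card_fin, Nat.cast_pow, Nat.cast_ofNat]
          · simp [h3]
        · simp [h2]
      · intro l _ hl
        simp [hl.symm]
      · simp only [Finset.mem_univ, not_true_eq_false, ↓reduceIte, Fintype.card_pi, Fintype.card_bool, Finset.prod_const, Finset.card_univ, Fintype.card_fin, Nat.cast_pow, Nat.cast_ofNat, ite_eq_right_iff, isUnit_iff_ne_zero, ne_eq, inv_eq_zero, pow_eq_zero_iff', OfNat.ofNat_ne_zero, false_and, not_false_eq_true, IsUnit.smul_eq_zero, and_imp, IsEmpty.forall_iff]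
    simp only [h1]
    rw [← Finset.sum_smul]
    by_cases hb : b = b'
    · simp only [hb, if_true]
      rw [half_bits]
    · simp [hb]
  have hT : ∀ b b', traceNorm (eve Ψ (M b) (N b') - if b = b' then (1 / 2 : ℂ) • σ t else 0) ≤
      err t := by
    intro b b'
    rw [hR, ← hS, ← Finset.sum_sub_distrib]
    refine (traceNorm_sum_le _ _).trans (Finset.sum_le_sum fun k _ => ?_)
    rw [← Finset.sum_sub_distrib]
    refine (traceNorm_sum_le _ _).trans (Finset.sum_le_sum fun l _ => ?_)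
    by_cases h1 : k i₀ = b ∧ l i₀ = b'
    · rw [if_pos h1, if_pos h1]
    · rw [if_neg h1, if_neg h1, sub_zero, traceNorm_zero]
      exact traceNorm_nonneg _
  have hpsd : ∀ b b', (eve Ψ (M b) (N b')).PosSemidef := fun b b' =>
    eve_posSemidef Ψ (hM b) (hN b')
  have hoff : ∀ b b', b ≠ b' → (eve Ψ (M b) (N b')).trace.re ≤ err t := by
    intro b b' hb
    have := hT b b'
    rw [if_neg hb, sub_zero, traceNorm_of_posSemidef (hpsd b b')] at this
    exact this
  have hdiag : ∀ b, |(eve Ψ (M b) (N b)).trace.re - c / 2| ≤ err t := by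
    intro b
    have h1 := hT b b
    rw [if_pos rfl] at h1
    have h2 := (norm_trace_le (eve Ψ (M b) (N b) - (1 / 2 : ℂ) • σ t)).trans h1
    refine le_trans ?_ ((Complex.abs_re_le_norm _).trans h2)
    rw [trace_sub, trace_smul, Complex.sub_re, smul_eq_mul]
    have : ((1 / 2 : ℂ) * (σ t).trace).re = c / 2 := by
      have h3 : (1 / 2 : ℂ) = (((1 / 2 : ℝ)) : ℂ) := by push_cast; rfl
      rw [h3, Complex.re_ofReal_mul, hc]
      ring
    rw [this]
  have hdd : traceNorm (eve Ψ (M false) (N false) - eve Ψ (M true) (N true)) ≤ 2 * err t := by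
    have h1 := hT false false
    have h2 := hT true true
    rw [if_pos rfl] at h1 h2
    have h3 : eve Ψ (M false) (N false) - eve Ψ (M true) (N true) =
        (eve Ψ (M false) (N false) - (1 / 2 : ℂ) • σ t) -
        (eve Ψ (M true) (N true) - (1 / 2 : ℂ) • σ t) := by abel
    rw [h3]
    refine (traceNorm_sub_le _ _).trans ?_
    linarith only [h1, h2]
  choose X hX using fun b => exists_eq_conjTranspose_mul_self (hM b)
  choose Y hY using fun b => exists_eq_conjTranspose_mul_self (hN b)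
  refine ⟨c, X false, X true, Y false, Y true, ht0, ?_, ?_, ?_, ?_, ?_⟩
  · rw [wt_eq, ← hX, ← hY]
    exact (hdiag false).trans ht
  · rw [wt_eq, ← hX, ← hY]
    exact (hdiag true).trans ht
  · rw [wt_eq, ← hX, ← hY]
    exact (hoff false true (by simp)).trans ht
  · rw [wt_eq, ← hX, ← hY]
    exact (hoff true false (by simp)).trans ht
  · have hF := fidelity_eve_ge Ψ (X false) (X true) (Y false) (Y true)
    rw [wt_eq, wt_eq]
    refine le_trans ?_ hF
    rw [← hX, ← hX, ← hY, ← hY]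
    have := hdd.trans (mul_le_mul_of_nonneg_left ht (by norm_num : (0 : ℝ) ≤ 2))
    linarith only [this]

/-- If key can be distilled, then for every `e > 0` some filters of finitely many copies give a
nearly perfect key bit. -/
theorem near_of_pos (Ψ : Matrix (A × B) E ℂ) (h : 0 < distillableKey Ψ) {e : ℝ} (he : 0 < e) :
    ∃ n : ℕ, 1 ≤ n ∧ ∃ (c : ℝ) (X₀ X₁ : Matrix (Fin n → A) (Fin n → A) ℂ)
      (Y₀ Y₁ : Matrix (Fin n → B) (Fin n → B) ℂ), 0 < c ∧
      |weight (tpow n (Ψ * Ψᴴ)) X₀ Y₀ - c / 2| ≤ e * c ∧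
      |weight (tpow n (Ψ * Ψᴴ)) X₁ Y₁ - c / 2| ≤ e * c ∧
      weight (tpow n (Ψ * Ψᴴ)) X₀ Y₁ ≤ e * c ∧ weight (tpow n (Ψ * Ψᴴ)) X₁ Y₀ ≤ e * c ∧
      (weight (tpow n (Ψ * Ψᴴ)) X₀ Y₀ + weight (tpow n (Ψ * Ψᴴ)) X₁ Y₁ - 2 * (e * c)) / 2 ≤
        traceNorm ((X₀ ⊗ₖ Y₀) * (tpow n (Ψ * Ψᴴ)) * (X₁ ⊗ₖ Y₁)ᴴ) := by
  rw [distillableKey_eq_KD] at h
  obtain ⟨R, ⟨ℓ, π, ε, hπ, hε, hlim, hR⟩, hR0⟩ := lt_sSup_iff.mp h
  rw [hR] at hR0
  have hev : ∀ᶠ n : ℕ in atTop, (0 : EReal) < (((ℓ n : ℝ) / (n : ℝ) : ℝ) : EReal) :=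
    eventually_lt_of_lt_liminf hR0 (by isBoundedDefault)
  have hev2 : ∀ᶠ n : ℕ in atTop, ε n < e := hlim.eventually_lt_const he
  obtain ⟨n, h1, h2, h3⟩ := (hev.and (hev2.and (eventually_ge_atTop 1))).exists
  have hℓ : 0 < ℓ n := by
    rcases Nat.eq_zero_or_pos (ℓ n) with h4 | h4
    · rw [h4] at h1
      simp at h1
    · exact h4
  obtain ⟨σ, hσ1, hσ2, hσ3⟩ := hε n
  refine ⟨n, h3, ?_⟩
  rw [← copies_mul]
  exact near_of_errorLE (copies n Ψ) ⟨0, hℓ⟩ (π n) (hπ n) ⟨σ, hσ1, hσ2, hσ3.trans h2.le⟩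

end Metro

end Vale.Agent.P372
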