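import Vale.Agent.P372.Metro.Local

open Matrix Kronecker
open scoped ComplexOrder MatrixOrder

set_option linter.unusedSectionVars false
set_option linter.unusedSimpArgs false

namespace Vale.Agent.P372

namespace Metro

variable {A B C D E I F : Type} [Fintype A] [DecidableEq A] [Fintype B] [DecidableEq B]
  [Fintype C] [DecidableEq C] [Fintype D] [DecidableEq D] [Fintype E] [DecidableEq E]
  [Fintype I] [DecidableEq I] [Fintype F] [DecidableEq F]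

theorem filtered_eq (n : ℕ) (Ψ : Matrix (A × B) E ℂ) (X : Matrix C (Fin n → A) ℂ)
    (Y : Matrix D (Fin n → B) ℂ) :
    filtered n (Ψ * Ψᴴ) X Y = ((X ⊗ₖ Y) * copies n Ψ) * ((X ⊗ₖ Y) * copies n Ψ)ᴴ := by
  rw [filtered, ← copies_mul, conjTranspose_mul]
  simp only [Matrix.mul_assoc]

/-- Violation of the local inequality gives key. -/
theorem local_pos (Ψ : Matrix (A × B) E ℂ) (hΨ : (Ψ * Ψᴴ).trace = 1) {n : ℕ} (hn : 1 ≤ n)
    (X : Matrix C (Fin n → A) ℂ) (Y : Matrix D (Fin n → B) ℂ) {a : Matrix C C ℂ}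
    {b : Matrix D D ℂ} (ha : a.IsHermitian) (hb : b.IsHermitian)
    {H : Matrix (C × D) (C × D) ℂ} (hH : H.IsHermitian)
    (h : 4 * ((filtered n (Ψ * Ψᴴ) X Y) * (H * H)).trace.re *
      (((filtered n (Ψ * Ψᴴ) X Y) * ((a * a) ⊗ₖ 1)).trace.re +
        ((filtered n (Ψ * Ψᴴ) X Y) * (1 ⊗ₖ (b * b))).trace.re) <
      ‖((filtered n (Ψ * Ψᴴ) X Y) *
        ((a ⊗ₖ 1 + 1 ⊗ₖ b) * H - H * (a ⊗ₖ 1 + 1 ⊗ₖ b))).trace‖ ^ 2) :
    0 < distillableKey Ψ := by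
  rw [filtered_eq] at h
  obtain ⟨ε, hε⟩ := exists_test _ ha hb hH h
  refine pos_of_rect Ψ hΨ hn ((1 + (ε : ℂ) • a) * X) ((1 - (ε : ℂ) • a) * X)
    ((1 + (ε : ℂ) • b) * Y) ((1 - (ε : ℂ) • b) * Y) ?_
  have e : ∀ (U : Matrix C C ℂ) (V : Matrix D D ℂ), ((U * X) ⊗ₖ (V * Y)) * copies n Ψ =
      (U ⊗ₖ V) * ((X ⊗ₖ Y) * copies n Ψ) := by
    intro U V
    rw [mul_kronecker_mul, Matrix.mul_assoc]
  have e2 : ∀ (U U' : Matrix C C ℂ) (V V' : Matrix D D ℂ),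
      ((U * X) ⊗ₖ (V * Y)) * (copies n Ψ * (copies n Ψ)ᴴ) * ((U' * X) ⊗ₖ (V' * Y))ᴴ =
      (U ⊗ₖ V) * (((X ⊗ₖ Y) * copies n Ψ) * ((X ⊗ₖ Y) * copies n Ψ)ᴴ) * (U' ⊗ₖ V')ᴴ := by
    intro U U' V V'
    rw [mul_kronecker_mul, mul_kronecker_mul, conjTranspose_mul, conjTranspose_mul]
    simp only [Matrix.mul_assoc]
  rw [e, e, e, e, e2]
  exact hε

/-- Robertson's inequality. -/
theorem robertson (Φ : Matrix I F ℂ) {G H : Matrix I I ℂ} (hG : G.IsHermitian)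
    (hH : H.IsHermitian) :
    ‖((Φ * Φᴴ) * (G * H - H * G)).trace‖ ^ 2 ≤
      4 * ((Φ * Φᴴ) * (G * G)).trace.re * ((Φ * Φᴴ) * (H * H)).trace.re := by
  have key : ∀ M N : Matrix I I ℂ, M.IsHermitian → ((Φ * Φᴴ) * (M * N)).trace =
      ((M * Φ)ᴴ * (N * Φ)).trace := by
    intro M N hM
    rw [conjTranspose_mul, hM.eq, Matrix.mul_assoc Φ, trace_mul_comm]
    simp only [Matrix.mul_assoc]
  have h1 : ((Φ * Φᴴ) * (G * G)).trace.re = hs (G * Φ) := by rw [key _ _ hG, hs_eq_re]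
  have h2 : ((Φ * Φᴴ) * (H * H)).trace.re = hs (H * Φ) := by rw [key _ _ hH, hs_eq_re]
  rw [Matrix.mul_sub, trace_sub, key _ _ hG, key _ _ hH, h1, h2]
  have h3 := norm_trace_conjTranspose_mul_le (G * Φ) (H * Φ)
  have h4 := norm_trace_conjTranspose_mul_le (H * Φ) (G * Φ)
  have h5 := norm_sub_le ((G * Φ)ᴴ * (H * Φ)).trace ((H * Φ)ᴴ * (G * Φ)).trace
  have h6 : ‖((G * Φ)ᴴ * (H * Φ)).trace - ((H * Φ)ᴴ * (G * Φ)).trace‖ ≤
      2 * (√(hs (G * Φ)) * √(hs (H * Φ))) := by linarith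
  calc _ ≤ (2 * (√(hs (G * Φ)) * √(hs (H * Φ)))) ^ 2 := pow_le_pow_left₀ (norm_nonneg _) h6 2
    _ = 4 * (√(hs (G * Φ)) ^ 2 * √(hs (H * Φ)) ^ 2) := by ring
    _ = _ := by rw [Real.sq_sqrt (hs_nonneg _), Real.sq_sqrt (hs_nonneg _)]; ring

theorem psd_sq (Φ : Matrix I F ℂ) {G : Matrix I I ℂ} (hG : G.IsHermitian) :
    0 ≤ ((Φ * Φᴴ) * (G * G)).trace.re := by
  have : ((Φ * Φᴴ) * (G * G)).trace = ((G * Φ)ᴴ * (G * Φ)).trace := by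
    rw [conjTranspose_mul, hG.eq, Matrix.mul_assoc Φ, trace_mul_comm]
    simp only [Matrix.mul_assoc]
  rw [this, ← hs_eq_re]
  exact hs_nonneg _

theorem ratio_le (Φ : Matrix I F ℂ) {G H : Matrix I I ℂ} (hG : G.IsHermitian)
    (hH : H.IsHermitian) :
    ‖((Φ * Φᴴ) * (G * H - H * G)).trace‖ ^ 2 / ((Φ * Φᴴ) * (H * H)).trace.re ≤
      4 * ((Φ * Φᴴ) * (G * G)).trace.re := by
  have h0 := psd_sq Φ hH
  have hG0 := psd_sq Φ hG
  rcases h0.eq_or_lt with h | h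
  · rw [← h, div_zero]
    positivity
  · rw [div_le_iff₀ h]
    exact robertson Φ hG hH

theorem qfi_bdd (Φ : Matrix I F ℂ) {G : Matrix I I ℂ} (hG : G.IsHermitian) :
    BddAbove (Set.range fun H : {H : Matrix I I ℂ // H.IsHermitian} =>
      ‖((Φ * Φᴴ) * (G * H.1 - H.1 * G)).trace‖ ^ 2 / ((Φ * Φᴴ) * (H.1 * H.1)).trace.re) :=
  ⟨4 * ((Φ * Φᴴ) * (G * G)).trace.re, by
    rintro _ ⟨H, rfl⟩
    exact ratio_le Φ hG H.2⟩

theorem le_qfi (Φ : Matrix I F ℂ) {G H : Matrix I I ℂ} (hG : G.IsHermitian)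
    (hH : H.IsHermitian) :
    ‖((Φ * Φᴴ) * (G * H - H * G)).trace‖ ^ 2 / ((Φ * Φᴴ) * (H * H)).trace.re ≤
      qfi (Φ * Φᴴ) G :=
  le_ciSup (qfi_bdd Φ hG) ⟨H, hH⟩

theorem qfi_le (Φ : Matrix I F ℂ) {G : Matrix I I ℂ} (hG : G.IsHermitian) :
    qfi (Φ * Φᴴ) G ≤ 4 * ((Φ * Φᴴ) * (G * G)).trace.re := by
  haveI : Nonempty {H : Matrix I I ℂ // H.IsHermitian} := ⟨⟨0, isHermitian_zero⟩⟩
  exact ciSup_le fun H => ratio_le Φ hG H.2

/-- A state whose Fisher information is large violates the local inequality. -/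
theorem exists_of_lt_qfi {σ G : Matrix I I ℂ} {v : ℝ} (hv : 0 ≤ v) (hσ : ∀ H : Matrix I I ℂ,
    H.IsHermitian → 0 ≤ (σ * (H * H)).trace.re) (h : 4 * v < qfi σ G) :
    ∃ H : Matrix I I ℂ, H.IsHermitian ∧
      4 * (σ * (H * H)).trace.re * v < ‖(σ * (G * H - H * G)).trace‖ ^ 2 := by
  haveI : Nonempty {H : Matrix I I ℂ // H.IsHermitian} := ⟨⟨0, isHermitian_zero⟩⟩
  obtain ⟨⟨H, hH⟩, h1⟩ := exists_lt_of_lt_ciSup h
  refine ⟨H, hH, ?_⟩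
  simp only at h1
  rcases (hσ H hH).eq_or_lt with h2 | h2
  · rw [← h2, div_zero] at h1
    linarith
  · rw [lt_div_iff₀ h2] at h1
    linarith

end Metro

end Vale.Agent.P372
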