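import Vale.Agent.P372.Metro.Near

open Matrix Kronecker
open scoped ComplexOrder MatrixOrder

set_option linter.unusedSectionVars false
set_option linter.unusedSimpArgs false

namespace Vale.Agent.P372

namespace Metro

variable {α β γ δ : Type} [Fintype α] [DecidableEq α] [Fintype β] [DecidableEq β]
  [Fintype γ] [DecidableEq γ] [Fintype δ] [DecidableEq δ]

/-- The embedding of `α` as the part `i` of `Bool × α`. -/
def emb (α : Type) [DecidableEq α] (i : Bool) : Matrix (Bool × α) α ℂ := fun p x => if p = (i, x) then 1 else 0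

/-- The operator with components `X false`, `X true`. -/
def stk (X : Bool → Matrix α γ ℂ) : Matrix (Bool × α) γ ℂ := fun p x => X p.1 p.2 x

/-- The sign of the key bit. -/
def zz (α : Type) [DecidableEq α] : Matrix (Bool × α) (Bool × α) ℂ :=
  diagonal fun p => if p.1 then -1 else 1

def sg (i : Bool) : ℝ := if i then -1 else 1

theorem emb_stk (i : Bool) (X : Bool → Matrix α γ ℂ) : (emb α i)ᴴ * stk X = X i := by
  ext x y
  rw [mul_apply, Finset.sum_eq_single (i, x)]
  · simp [emb, stk]
  · intro p _ hp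
    simp [emb, hp]
  · intro h
    exact absurd (Finset.mem_univ _) h

theorem emb_self (i : Bool) : (emb α i)ᴴ * emb α i = 1 := by
  ext x y
  rw [mul_apply, Finset.sum_eq_single (i, x)]
  · by_cases h : x = y
    · subst h; simp [emb]
    · simp [emb, h]
  · intro p _ hp
    simp [emb, hp]
  · intro h
    exact absurd (Finset.mem_univ _) h

theorem sum_emb : emb α false * (emb α false)ᴴ + emb α true * (emb α true)ᴴ = 1 := by
  ext ⟨i, x⟩ ⟨j, y⟩
  rw [Matrix.add_apply, mul_apply, mul_apply, ← Finset.sum_add_distrib, Finset.sum_eq_single x]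
  · cases i <;> cases j <;> by_cases h : x = y <;>
      simp [emb, h, Matrix.one_apply, eq_comm]
  · intro z _ hz
    cases i <;> simp [emb, hz.symm]
  · intro h
    exact absurd (Finset.mem_univ _) h

theorem zz_emb (i : Bool) : zz α * emb α i = ((sg i : ℝ) : ℂ) • emb α i := by
  ext p x
  rw [zz, diagonal_mul, Matrix.smul_apply, smul_eq_mul]
  by_cases h : p = (i, x)
  · subst h
    cases i <;> simp [sg, emb]
  · simp [emb, h]

theorem zz_herm : (zz α).IsHermitian := by
  rw [IsHermitian, zz, diagonal_conjTranspose]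
  congr 1
  funext p
  by_cases h : p.1 = true <;> simp [h]

theorem one_sub_zz : (1 - zz α).PosSemidef := by
  rw [zz, ← diagonal_one, diagonal_sub, posSemidef_diagonal_iff]
  intro p
  by_cases h : p.1 = true
  · simp only [h, if_true]
    norm_num
  · simp [h]

theorem one_add_zz : (1 + zz α).PosSemidef := by
  rw [zz, ← diagonal_one, diagonal_add, posSemidef_diagonal_iff]
  intro p
  by_cases h : p.1 = true
  · simp [h]
  · simp only [h]
    norm_num

/-- The joint embedding. -/
def jj (α β : Type) [DecidableEq α] [DecidableEq β] (i j : Bool) :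
    Matrix ((Bool × α) × (Bool × β)) (α × β) ℂ := emb α i ⊗ₖ emb β j

theorem jj_stk (i j : Bool) (X : Bool → Matrix α γ ℂ) (Y : Bool → Matrix β δ ℂ) :
    (jj α β i j)ᴴ * (stk X ⊗ₖ stk Y) = X i ⊗ₖ Y j := by
  rw [jj, conjTranspose_kronecker, ← mul_kronecker_mul, emb_stk, emb_stk]

theorem jj_self (i j : Bool) : (jj α β i j)ᴴ * jj α β i j = 1 := by
  rw [jj, conjTranspose_kronecker, ← mul_kronecker_mul, emb_self, emb_self, one_kronecker_one]

theorem sum_jj : jj α β false false *
      (jj α β false false)ᴴ + jj α β false true * (jj α β false true)ᴴ +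
      jj α β true false * (jj α β true false)ᴴ +
      jj α β true true * (jj α β true true)ᴴ = 1 := by
  have h : ∀ i j : Bool, jj α β i j * (jj α β i j)ᴴ =
      (emb α i * (emb α i)ᴴ) ⊗ₖ (emb β j * (emb β j)ᴴ) := by
    intro i j
    rw [jj, conjTranspose_kronecker, ← mul_kronecker_mul]
  rw [h, h, h, h, ← one_kronecker_one, ← sum_emb (α := α), ← sum_emb (α := β),
    add_kronecker, kronecker_add, kronecker_add]
  abel

theorem gg_jj (i j : Bool) : (zz α ⊗ₖ 1 + 1 ⊗ₖ zz β) * jj α β i j =
    ((sg i + sg j : ℝ) : ℂ) • jj α β i j := by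
  rw [jj, Matrix.add_mul, ← mul_kronecker_mul, ← mul_kronecker_mul, zz_emb, zz_emb, Matrix.one_mul,
    Matrix.one_mul, smul_kronecker, kronecker_smul, ← add_smul]
  push_cast
  rfl

theorem kk_jj (i j : Bool) : (zz α ⊗ₖ zz β) * jj α β i j = ((sg i * sg j : ℝ) : ℂ) • jj α β i j := by
  rw [jj, ← mul_kronecker_mul, zz_emb, zz_emb, smul_kronecker, kronecker_smul, smul_smul]
  push_cast
  rfl

section

variable (R : Matrix (γ × δ) (γ × δ) ℂ) (X : Bool → Matrix α γ ℂ) (Y : Bool → Matrix β δ ℂ)

/-- The weights. -/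
noncomputable def pw (i j : Bool) : ℝ := ((X i ⊗ₖ Y j) * R * (X i ⊗ₖ Y j)ᴴ).trace.re

theorem jj_sigma (i j k l : Bool) : (jj α β i j)ᴴ * ((stk X ⊗ₖ stk Y) * R * (stk X ⊗ₖ stk Y)ᴴ) * jj α β k l =
    (X i ⊗ₖ Y j) * R * (X k ⊗ₖ Y l)ᴴ := by
  have h : (stk X ⊗ₖ stk Y)ᴴ * jj α β k l = (X k ⊗ₖ Y l)ᴴ := by
    rw [← jj_stk k l X Y, conjTranspose_mul, conjTranspose_conjTranspose]
  calc _ = ((jj α β i j)ᴴ * (stk X ⊗ₖ stk Y)) * R * ((stk X ⊗ₖ stk Y)ᴴ * jj α β k l) := by
        simp only [Matrix.mul_assoc]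
    _ = _ := by rw [jj_stk, h]

/-- Traces of operators that are scalar on the four parts. -/
theorem trace_sigma {M : Matrix ((Bool × α) × (Bool × β)) ((Bool × α) × (Bool × β)) ℂ}
    {m : Bool → Bool → ℝ} (hM : ∀ i j, M * jj α β i j = ((m i j : ℝ) : ℂ) • jj α β i j) :
    (((stk X ⊗ₖ stk Y) * R * (stk X ⊗ₖ stk Y)ᴴ) * M).trace.re =
      m false false * pw R X Y false false + m false true * pw R X Y false true +
      m true false * pw R X Y true false + m true true * pw R X Y true true := by
  set σ := (stk X ⊗ₖ stk Y) * R * (stk X ⊗ₖ stk Y)ᴴ with hσ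
  have key : ∀ i j, (σ * (M * (jj α β i j * (jj α β i j)ᴴ))).trace.re = m i j * pw R X Y i j := by
    intro i j
    have : (σ * (M * (jj α β i j * (jj α β i j)ᴴ))).trace =
        ((m i j : ℝ) : ℂ) * ((jj α β i j)ᴴ * σ * jj α β i j).trace := by
      rw [← Matrix.mul_assoc M, hM, Matrix.smul_mul, Matrix.mul_smul, trace_smul, smul_eq_mul,
        ← Matrix.mul_assoc σ, trace_mul_comm (σ * jj α β i j)]
      simp only [Matrix.mul_assoc]
    rw [this, Complex.re_ofReal_mul, hσ, jj_sigma, pw]
  have h1 : (σ * M).trace = (σ * (M * (jj α β false false * (jj α β false false)ᴴ))).trace +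
      (σ * (M * (jj α β false true * (jj α β false true)ᴴ))).trace +
      (σ * (M * (jj α β true false * (jj α β true false)ᴴ))).trace +
      (σ * (M * (jj α β true true * (jj α β true true)ᴴ))).trace := by
    rw [← trace_add, ← trace_add, ← trace_add, ← Matrix.mul_add, ← Matrix.mul_add,
      ← Matrix.mul_add, ← Matrix.mul_add, ← Matrix.mul_add, ← Matrix.mul_add, sum_jj,
      Matrix.mul_one]
  rw [h1, Complex.add_re, Complex.add_re, Complex.add_re, key, key, key, key]

end

end Metro

end Vale.Agent.P372
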